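import Vale.Agent.Lib.P249.Reduce

/-!
Finite subsets of `L_p(μ)` are represented, up to a factor `1 ± η`, by finitely many weighted
coordinates.
-/

namespace Vale.Agent.P249

open MeasureTheory
open scoped ENNReal

/-- the joint simple function of a finite family -/
noncomputable def jointSimple {Ω V : Type*} [MeasurableSpace Ω] [Finite V]
    (g : V → SimpleFunc Ω ℝ) : SimpleFunc Ω (V → ℝ) where
  toFun ω a := g a ω
  measurableSet_fiber' v := by
    have : (fun ω a => g a ω) ⁻¹' {v} = ⋂ a, (g a) ⁻¹' {v a} := by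
      ext ω; simp [funext_iff]
    rw [this]
    exact MeasurableSet.iInter fun a => (g a).measurableSet_fiber _
  finite_range' := by
    refine Set.Finite.subset (Set.Finite.pi' fun a => (g a).finite_range) ?_
    rintro v ⟨ω, rfl⟩ a
    exact ⟨ω, rfl⟩

/-- the `L_p` norm of a difference of simple functions as a finite weighted sum -/
lemma eLpNorm_joint {Ω V : Type*} [MeasurableSpace Ω] [Finite V] (μ : Measure Ω) (p : ℝ)
    (hp : 0 < p) (g : V → SimpleFunc Ω ℝ) (a b : V)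
    (hfin : eLpNorm (fun ω => g a ω - g b ω) (ENNReal.ofReal p) μ ≠ ∞) :
    (eLpNorm (fun ω => g a ω - g b ω) (ENNReal.ofReal p) μ).toReal
      = (∑ v ∈ (jointSimple g).range,
          (μ ((jointSimple g) ⁻¹' {v})).toReal * |v a - v b| ^ p) ^ (1 / p) := by
  have hp0 : ENNReal.ofReal p ≠ 0 := by simpa using hp
  have hpr : (ENNReal.ofReal p).toReal = p := ENNReal.toReal_ofReal hp.le
  have h1 := eLpNorm_eq_lintegral_rpow_enorm_toReal (μ := μ) hp0 ENNReal.ofReal_ne_top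
    (f := fun ω => g a ω - g b ω)
  rw [hpr] at h1
  set G : (V → ℝ) → ℝ≥0∞ := fun v => ‖v a - v b‖ₑ ^ p with hG
  have h2 : ∫⁻ ω, ‖g a ω - g b ω‖ₑ ^ p ∂μ
      = ∑ v ∈ (jointSimple g).range, G v * μ ((jointSimple g) ⁻¹' {v}) := by
    rw [← SimpleFunc.map_lintegral, ← SimpleFunc.lintegral_eq_lintegral]
    rfl
  rw [h1, h2] at hfin
  rw [h1, h2, ← ENNReal.toReal_rpow]
  congr 1
  have hsum : ∑ v ∈ (jointSimple g).range, G v * μ ((jointSimple g) ⁻¹' {v}) ≠ ∞ := by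
    intro h
    rw [h] at hfin
    exact hfin (ENNReal.top_rpow_of_pos (by positivity))
  rw [ENNReal.toReal_sum (fun v hv => (ENNReal.sum_ne_top.mp hsum) v hv)]
  refine Finset.sum_congr rfl fun v _ => ?_
  rw [ENNReal.toReal_mul, mul_comm]
  congr 1
  simp only [hG]
  rw [← ENNReal.toReal_rpow, toReal_enorm, Real.norm_eq_abs]

/-- approximation by finitely many weighted coordinates -/
theorem exists_finite_rep {Ω : Type*} [MeasurableSpace Ω] (μ : Measure Ω) (p : ℝ) (hp : 1 ≤ p)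
    {V : Type*} [Fintype V] (X : V → Lp ℝ (ENNReal.ofReal p) μ) (hX : Function.Injective X)
    (η : ℝ) (hη : 0 < η) :
    ∃ (K : Finset (V → ℝ)) (w : (V → ℝ) → ℝ), (∀ k, 0 ≤ w k) ∧ ∀ a b,
      (1 - η) * ‖X a - X b‖ ≤ (∑ k ∈ K, w k * |k a - k b| ^ p) ^ (1 / p) ∧
      (∑ k ∈ K, w k * |k a - k b| ^ p) ^ (1 / p) ≤ (1 + η) * ‖X a - X b‖ := by
  classical
  have hp' : Fact (1 ≤ ENNReal.ofReal p) := ⟨by
    rw [← ENNReal.ofReal_one]; exact ENNReal.ofReal_le_ofReal hp⟩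
  -- minimal distance
  obtain ⟨m0, hm0, hm⟩ : ∃ m0 : ℝ, 0 < m0 ∧ ∀ a b, a ≠ b → m0 ≤ ‖X a - X b‖ := by
    set S : Finset (V × V) := Finset.univ.filter fun e => e.1 ≠ e.2 with hS
    rcases S.eq_empty_or_nonempty with hE | hE
    · refine ⟨1, one_pos, fun a b hab => ?_⟩
      have : (a, b) ∈ S := Finset.mem_filter.mpr ⟨Finset.mem_univ _, hab⟩
      rw [hE] at this; exact absurd this (Finset.notMem_empty _)
    · obtain ⟨e, he, hmin⟩ := Finset.exists_min_image S (fun e => ‖X e.1 - X e.2‖) hE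
      refine ⟨‖X e.1 - X e.2‖, ?_, fun a b hab =>
        hmin (a, b) (Finset.mem_filter.mpr ⟨Finset.mem_univ _, hab⟩)⟩
      have hne : e.1 ≠ e.2 := (Finset.mem_filter.mp he).2
      exact norm_pos_iff.mpr (sub_ne_zero.mpr fun h => hne (hX h))
  set δ : ℝ := η * m0 / 2 with hδ
  have hδ0 : 0 < δ := by positivity
  have hg : ∀ a, ∃ g : SimpleFunc Ω ℝ,
      eLpNorm (⇑(X a) - ⇑g) (ENNReal.ofReal p) μ < ENNReal.ofReal δ ∧
        MemLp g (ENNReal.ofReal p) μ := fun a =>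
    (Lp.memLp (X a)).exists_simpleFunc_eLpNorm_sub_lt ENNReal.ofReal_ne_top
      (by simpa using hδ0)
  choose g hg1 hg2 using hg
  have hmem : ∀ a, MemLp (g a) (ENNReal.ofReal p) μ := hg2
  set Y : V → Lp ℝ (ENNReal.ofReal p) μ := fun a => (hmem a).toLp (g a) with hY
  have hclose : ∀ a, ‖X a - Y a‖ ≤ δ := by
    intro a
    have h1 : X a - Y a = ((Lp.memLp (X a)).sub (hmem a)).toLp (⇑(X a) - ⇑(g a)) := by
      rw [MemLp.toLp_sub (Lp.memLp (X a)) (hmem a), Lp.toLp_coeFn]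
    rw [h1, Lp.norm_toLp]
    exact ENNReal.toReal_le_of_le_ofReal hδ0.le (hg1 a).le
  have hYn : ∀ a b, ‖Y a - Y b‖
      = (∑ v ∈ (jointSimple g).range,
          (μ ((jointSimple g) ⁻¹' {v})).toReal * |v a - v b| ^ p) ^ (1 / p) := by
    intro a b
    have h1 : Y a - Y b = ((hmem a).sub (hmem b)).toLp (⇑(g a) - ⇑(g b)) := by
      rw [MemLp.toLp_sub (hmem a) (hmem b)]
    rw [h1, Lp.norm_toLp]
    exact eLpNorm_joint μ p (by linarith) g a b ((hmem a).sub (hmem b)).eLpNorm_ne_top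
  refine ⟨(jointSimple g).range, fun v => (μ ((jointSimple g) ⁻¹' {v})).toReal,
    fun _ => ENNReal.toReal_nonneg, fun a b => ?_⟩
  rw [← hYn a b]
  by_cases hab : a = b
  · subst hab; simp
  · have h1 := hm a b hab
    have h2 := hclose a
    have h3 := hclose b
    have h4 : |‖X a - X b‖ - ‖Y a - Y b‖| ≤ 2 * δ := by
      calc |‖X a - X b‖ - ‖Y a - Y b‖| ≤ ‖(X a - X b) - (Y a - Y b)‖ := abs_norm_sub_norm_le _ _
        _ = ‖(X a - Y a) - (X b - Y b)‖ := by congr 1; abel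
        _ ≤ ‖X a - Y a‖ + ‖X b - Y b‖ := norm_sub_le _ _
        _ ≤ 2 * δ := by linarith
    have h5 : 2 * δ ≤ η * ‖X a - X b‖ := by
      rw [hδ]
      have := mul_le_mul_of_nonneg_left h1 hη.le
      linarith
    have h6 := abs_le.mp h4
    constructor <;> linarith

end Vale.Agent.P249
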