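import Vale.Agent.Lib.P249.Maurey

/-!
Truncated Gaussian vectors in the cube, and nets of the cube.
-/

namespace Vale.Agent.P249

open MeasureTheory ProbabilityTheory Filter Topology
open scoped ENNReal NNReal RealInnerProductSpace

variable {k : ℕ}

/-- truncation to `[-1,1]` -/
noncomputable def cl (t : ℝ) : ℝ := max (-1) (min 1 t)

lemma cl_mem (t : ℝ) : -1 ≤ cl t ∧ cl t ≤ 1 := by
  unfold cl
  exact ⟨le_max_left _ _, max_le (by norm_num) (min_le_left _ _)⟩

lemma abs_cl_sub_le (s t : ℝ) : |cl s - cl t| ≤ |s - t| := by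
  unfold cl
  refine (abs_max_sub_max_le_max _ _ _ _).trans ?_
  refine max_le (by simp) ?_
  refine (abs_min_sub_min_le_max _ _ _ _).trans ?_
  exact max_le (by simp) le_rfl

lemma cl_continuous : Continuous cl := by unfold cl; fun_prop

/-- coordinatewise truncation -/
noncomputable def tau (x : Eu k) : Eu k := WithLp.toLp 2 (fun j => cl (x j))

@[simp] lemma tau_apply (x : Eu k) (j : Fin k) : tau x j = cl (x j) := rfl

lemma tau_lipschitz : LipschitzWith 1 (tau : Eu k → Eu k) := by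
  refine LipschitzWith.of_dist_le_mul fun x y => ?_
  rw [NNReal.coe_one, one_mul, EuclideanSpace.dist_eq, EuclideanSpace.dist_eq]
  refine Real.sqrt_le_sqrt (Finset.sum_le_sum fun j _ => ?_)
  rw [Real.dist_eq, Real.dist_eq]
  exact pow_le_pow_left₀ (abs_nonneg _) (abs_cl_sub_le _ _) 2

lemma norm_tau_sub_sq (x y : Eu k) : ‖tau x - tau y‖ ^ 2 = ∑ j, (cl (x j) - cl (y j)) ^ 2 := by
  rw [EuclideanSpace.norm_sq_eq]
  refine Finset.sum_congr rfl fun j _ => ?_
  simp [Real.norm_eq_abs, sq_abs]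

lemma norm_tau_sub_le (x y : Eu k) : ‖tau x - tau y‖ ≤ 2 * Real.sqrt k := by
  have h1 : ‖tau x - tau y‖ ^ 2 ≤ (2 * Real.sqrt k) ^ 2 := by
    rw [norm_tau_sub_sq, mul_pow, Real.sq_sqrt (Nat.cast_nonneg k)]
    calc ∑ j, (cl (x j) - cl (y j)) ^ 2 ≤ ∑ _j : Fin k, (2:ℝ) ^ 2 := by
          refine Finset.sum_le_sum fun j _ => ?_
          have h1 := cl_mem (x j)
          have h2 := cl_mem (y j)
          nlinarith
      _ = _ := by simp; ring
  exact (pow_le_pow_iff_left₀ (norm_nonneg _) (by positivity) two_ne_zero).mp h1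

/-- the coordinate functional -/
noncomputable def coordL (j : Fin k) : StrongDual ℝ (Eu k) :=
  innerSL ℝ (EuclideanSpace.single j (1:ℝ))

lemma coordL_apply (j : Fin k) (x : Eu k) : coordL j x = x j := by
  simp [coordL, EuclideanSpace.inner_single_left]

lemma norm_coordL (j : Fin k) : ‖coordL (k := k) j‖ = 1 := by
  simp [coordL, innerSL_apply_norm]

lemma map_coord (j : Fin k) :
    (stdGaussian (Eu k)).map (fun x => x j) = gaussianReal 0 1 := by
  have h := map_dual_stdGaussian k (coordL j)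
  rw [norm_coordL] at h
  have e1 : (fun t : ℝ => (1:ℝ) * t) = id := by funext t; simp
  rw [e1, Measure.map_id] at h
  rw [← h]
  congr 1
  funext x
  exact (coordL_apply j x).symm

lemma map_coord2 (j : Fin k) :
    (gg k).map (fun z => (z.1 j, z.2 j)) = (gaussianReal 0 1).prod (gaussianReal 0 1) := by
  have h := Measure.map_prod_map (stdGaussian (Eu k)) (stdGaussian (Eu k))
    (f := fun x : Eu k => x j) (g := fun x : Eu k => x j) (by fun_prop) (by fun_prop)
  rw [map_coord] at h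
  rw [h]
  rfl

/-- mean square difference of two independent truncated Gaussians -/
noncomputable def v2 : ℝ :=
  ∫ w, (cl w.1 - cl w.2) ^ 2 ∂((gaussianReal 0 1).prod (gaussianReal 0 1))

lemma v2_pos : 0 < v2 := by
  unfold v2
  have hint : Integrable (fun w : ℝ × ℝ => (cl w.1 - cl w.2) ^ 2)
      ((gaussianReal 0 1).prod (gaussianReal 0 1)) := by
    refine (integrable_const (4:ℝ)).mono' ?_ (Eventually.of_forall fun w => ?_)
    · exact (((cl_continuous.comp continuous_fst).sub (cl_continuous.comp continuous_snd)).pow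
        2).aestronglyMeasurable
    · rw [Real.norm_eq_abs, abs_of_nonneg (sq_nonneg _)]
      have h1 := cl_mem w.1
      have h2 := cl_mem w.2
      nlinarith
  rw [integral_pos_iff_support_of_nonneg (fun w => sq_nonneg _) hint]
  have hsub : Set.Ioo (0:ℝ) 1 ×ˢ Set.Ioo (-1:ℝ) 0 ⊆
      Function.support (fun w : ℝ × ℝ => (cl w.1 - cl w.2) ^ 2) := by
    rintro ⟨a, b⟩ ⟨ha, hb⟩
    simp only [Set.mem_Ioo] at ha hb
    have e1 : cl a = a := by
      unfold cl
      rw [min_eq_right ha.2.le, max_eq_right (by linarith)]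
    have e2 : cl b = b := by
      unfold cl
      rw [min_eq_right (by linarith), max_eq_right hb.1.le]
    simp only [Function.mem_support, e1, e2]
    have : 0 < a - b := by linarith
    positivity
  refine lt_of_lt_of_le ?_ (measure_mono hsub)
  rw [Measure.prod_prod]
  have hac := gaussianReal_absolutelyContinuous' 0 (one_ne_zero : (1:ℝ≥0) ≠ 0)
  have h1 : gaussianReal 0 1 (Set.Ioo (0:ℝ) 1) ≠ 0 := by
    intro h
    have := hac h
    simp at this
  have h2 : gaussianReal 0 1 (Set.Ioo (-1:ℝ) 0) ≠ 0 := by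
    intro h
    have := hac h
    simp at this
  exact ENNReal.mul_pos h1 h2

lemma integral_sq (j : Fin k) : ∫ z, (cl (z.1 j) - cl (z.2 j)) ^ 2 ∂(gg k) = v2 := by
  unfold v2
  rw [← map_coord2 j, integral_map (by fun_prop)]
  exact (((cl_continuous.comp continuous_fst).sub (cl_continuous.comp continuous_snd)).pow
        2).aestronglyMeasurable

lemma integral_norm_sq : ∫ z, ‖tau z.1 - tau z.2‖ ^ 2 ∂(gg k) = k * v2 := by
  simp only [norm_tau_sub_sq]
  rw [integral_finsetSum]
  · simp only [integral_sq]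
    simp
  · intro j _
    refine (integrable_const (4:ℝ)).mono' ?_ (Eventually.of_forall fun z => ?_)
    · have h1 : Continuous fun z : Eu k × Eu k => cl (z.1 j) := cl_continuous.comp (by fun_prop)
      have h2 : Continuous fun z : Eu k × Eu k => cl (z.2 j) := cl_continuous.comp (by fun_prop)
      exact ((h1.sub h2).pow 2).aestronglyMeasurable
    · rw [Real.norm_eq_abs, abs_of_nonneg (sq_nonneg _)]
      have h1 := cl_mem (z.1 j)
      have h2 := cl_mem (z.2 j)
      nlinarith

/-- lower bound for the `p`-th moment of the distance of two truncated Gaussians -/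
lemma integral_norm_rpow_ge (hk : 0 < k) {p : ℝ} (hp : 2 ≤ p) :
    (k * v2 / 2) ^ (p / 2) ≤ ∫ z, ‖tau z.1 - tau z.2‖ ^ p ∂(gg k) := by
  have hv := v2_pos
  have hk0 : (0:ℝ) < k := by exact_mod_cast hk
  set A : ℝ := Real.sqrt (k * v2 / 2) with hA
  have hA0 : 0 < A := Real.sqrt_pos.mpr (by positivity)
  have hA2 : A ^ 2 = k * v2 / 2 := Real.sq_sqrt (by positivity)
  have hcont : Continuous fun z : Eu k × Eu k => ‖tau z.1 - tau z.2‖ := by
    have h1 := (tau_lipschitz (k := k)).continuous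
    exact ((h1.comp continuous_fst).sub (h1.comp continuous_snd)).norm
  have hintp : Integrable (fun z : Eu k × Eu k => ‖tau z.1 - tau z.2‖ ^ p) (gg k) := by
    refine (integrable_const ((2 * Real.sqrt k) ^ p)).mono' ?_ (Eventually.of_forall fun z => ?_)
    · exact (hcont.rpow_const fun _ => Or.inr (by linarith)).aestronglyMeasurable
    · rw [Real.norm_eq_abs, abs_of_nonneg (by positivity)]
      exact Real.rpow_le_rpow (norm_nonneg _) (norm_tau_sub_le _ _) (by linarith)
  have hint2 : Integrable (fun z : Eu k × Eu k => ‖tau z.1 - tau z.2‖ ^ 2) (gg k) := by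
    refine (integrable_const ((2 * Real.sqrt k) ^ 2)).mono' ?_ (Eventually.of_forall fun z => ?_)
    · exact (hcont.pow 2).aestronglyMeasurable
    · rw [Real.norm_eq_abs, abs_of_nonneg (by positivity)]
      exact pow_le_pow_left₀ (norm_nonneg _) (norm_tau_sub_le _ _) 2
  have hpt : ∀ z : Eu k × Eu k, ‖tau z.1 - tau z.2‖ ^ 2
      ≤ A ^ 2 + A ^ (2 - p) * ‖tau z.1 - tau z.2‖ ^ p := by
    intro z
    set w := ‖tau z.1 - tau z.2‖ with hw
    have hw0 : 0 ≤ w := norm_nonneg _
    rcases le_total w A with h | h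
    · have h1 : w ^ 2 ≤ A ^ 2 := pow_le_pow_left₀ hw0 h 2
      have h2 : 0 ≤ A ^ (2 - p) * w ^ p := by positivity
      linarith
    · have hw1 : 0 < w := lt_of_lt_of_le hA0 h
      have h1 : w ^ 2 = w ^ (2 - p) * w ^ p := by
        rw [← Real.rpow_add hw1]
        norm_num
      have h2 : w ^ (2 - p) ≤ A ^ (2 - p) :=
        Real.rpow_le_rpow_of_nonpos hA0 h (by linarith)
      have h3 : 0 ≤ w ^ p := by positivity
      have h4 := mul_le_mul_of_nonneg_right h2 h3
      have h5 := sq_nonneg A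
      linarith
  have h1 : ∫ z, ‖tau z.1 - tau z.2‖ ^ 2 ∂(gg k)
      ≤ ∫ z, (A ^ 2 + A ^ (2 - p) * ‖tau z.1 - tau z.2‖ ^ p) ∂(gg k) :=
    integral_mono hint2 ((integrable_const _).add (hintp.const_mul _)) hpt
  rw [integral_norm_sq, integral_add (integrable_const _) (hintp.const_mul _),
    integral_const_mul] at h1
  simp only [integral_const, probReal_univ, smul_eq_mul, one_mul] at h1
  have h2 : A ^ 2 ≤ A ^ (2 - p) * ∫ z, ‖tau z.1 - tau z.2‖ ^ p ∂(gg k) := by
    have : (k:ℝ) * v2 = A ^ 2 + A ^ 2 := by rw [hA2]; ring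
    linarith
  have h3 : A ^ (p - 2) * A ^ 2 ≤ ∫ z, ‖tau z.1 - tau z.2‖ ^ p ∂(gg k) := by
    have h4 := mul_le_mul_of_nonneg_left h2 (by positivity : 0 ≤ A ^ (p - 2))
    rw [← mul_assoc, ← Real.rpow_add hA0] at h4
    simpa using h4
  have h4 : (k * v2 / 2) ^ (p / 2) = A ^ (p - 2) * A ^ 2 := by
    rw [← hA2, ← Real.rpow_natCast A 2, ← Real.rpow_mul hA0.le, ← Real.rpow_add hA0]
    congr 1
    push_cast
    ring
  rw [h4]
  exact h3

/-! ### nets -/

/-- the grid `{-1, -1 + 1/m, …, 1}` -/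
noncomputable def gridPt (m : ℕ) (i : Fin (2 * m + 1)) : ℝ := (i : ℝ) / m - 1

/-- the corresponding point of the cube -/
noncomputable def netPt (m : ℕ) (a : Fin k → Fin (2 * m + 1)) : Eu k :=
  WithLp.toLp 2 (fun j => gridPt m (a j))

open Classical in
/-- the net -/
noncomputable def cubeNet (k m : ℕ) : Finset (Eu k) := Finset.univ.image (netPt m)

lemma card_cubeNet (k m : ℕ) : (cubeNet k m).card ≤ (2 * m + 1) ^ k := by
  classical
  unfold cubeNet
  refine Finset.card_image_le.trans ?_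
  simp

lemma exists_grid {m : ℕ} (hm : 0 < m) {t : ℝ} (h1 : -1 ≤ t) (h2 : t ≤ 1) :
    ∃ i : Fin (2 * m + 1), |t - gridPt m i| ≤ 1 / m := by
  have hm0 : (0:ℝ) < m := by exact_mod_cast hm
  have h0 : 0 ≤ (t + 1) * m := mul_nonneg (by linarith) hm0.le
  have hle : ⌊(t + 1) * m⌋₊ ≤ 2 * m := by
    have h3 : (t + 1) * m ≤ ((2 * m : ℕ) : ℝ) := by push_cast; nlinarith
    calc ⌊(t + 1) * m⌋₊ ≤ ⌊((2 * m : ℕ) : ℝ)⌋₊ := Nat.floor_mono h3
      _ = 2 * m := Nat.floor_natCast _
  refine ⟨⟨⌊(t + 1) * m⌋₊, by omega⟩, ?_⟩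
  unfold gridPt
  have h4 := Nat.floor_le h0
  have h5 := Nat.lt_floor_add_one ((t + 1) * m)
  have h6 : t - ((⌊(t + 1) * m⌋₊ : ℝ) / m - 1) = ((t + 1) * m - ⌊(t + 1) * m⌋₊) / m := by
    field_simp
    ring
  simp only
  rw [h6, abs_of_nonneg (div_nonneg (by linarith) hm0.le)]
  exact div_le_div_of_nonneg_right (by linarith) hm0.le

lemma exists_round {m : ℕ} (hm : 0 < m) (x : Eu k) :
    ∃ r ∈ cubeNet k m, ‖tau x - r‖ ≤ Real.sqrt k / m := by
  classical
  choose a ha using fun j : Fin k => exists_grid hm (cl_mem (x j)).1 (cl_mem (x j)).2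
  refine ⟨netPt m a, Finset.mem_image_of_mem _ (Finset.mem_univ _), ?_⟩
  have hm0 : (0:ℝ) < m := by exact_mod_cast hm
  have h1 : ‖tau x - netPt m a‖ ^ 2 ≤ (Real.sqrt k / m) ^ 2 := by
    rw [EuclideanSpace.norm_sq_eq, div_pow, Real.sq_sqrt (Nat.cast_nonneg k)]
    calc ∑ j, ‖(tau x - netPt m a) j‖ ^ 2 ≤ ∑ _j : Fin k, (1 / (m:ℝ)) ^ 2 := by
          refine Finset.sum_le_sum fun j _ => ?_
          exact pow_le_pow_left₀ (norm_nonneg _) (ha j) 2
      _ = _ := by simp; ring
  exact (pow_le_pow_iff_left₀ (norm_nonneg _) (by positivity) two_ne_zero).mp h1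

end Vale.Agent.P249
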