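import Mathlib

/-!
Definitions for P249: dimension reduction for finite subsets of `L_p`.
-/

namespace Vale.Agent.P249

open MeasureTheory
open scoped ENNReal

universe u

/-- The norm `(∑_k |y_k|^p)^{1/p}` of `ℓ_p^d`. -/
noncomputable def lpNorm (p : ℝ) {d : ℕ} (y : Fin d → ℝ) : ℝ :=
  (∑ k, |y k| ^ p) ^ (1 / p)

/-- The finite set `X ⊂ L_p(μ)` admits a map into `ℓ_p^d` of distortion at most `D`. -/
def EmbedsIn (p : ℝ) {Ω : Type u} [MeasurableSpace Ω] {μ : Measure Ω}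
    (X : Finset (Lp ℝ (ENNReal.ofReal p) μ)) (d : ℕ) (D : ℝ) : Prop :=
  ∃ (f : Lp ℝ (ENNReal.ofReal p) μ → Fin d → ℝ) (s : ℝ), 0 < s ∧ ∀ x ∈ X, ∀ y ∈ X,
    s * ‖x - y‖ ≤ lpNorm p (f x - f y) ∧ lpNorm p (f x - f y) ≤ D * s * ‖x - y‖

/-- Every `n`-point subset of every `L_p(μ)` admits a map into `ℓ_p^d` of distortion at most
`D`. -/
def Admits (p D : ℝ) (n d : ℕ) : Prop :=
  ∀ (Ω : Type u) [MeasurableSpace Ω] (μ : Measure Ω)
    (X : Finset (Lp ℝ (ENNReal.ofReal p) μ)), X.card = n → EmbedsIn p X d D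

/-- `d_p(n, D)`: the least dimension `d` that suffices for all `n`-point subsets of all
`L_p(μ)`. -/
noncomputable def dimP (p D : ℝ) (n : ℕ) : ℕ := sInf {d : ℕ | Admits.{u} p D n d}

end Vale.Agent.P249
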