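import Vale.Agent.Lib.P249.Resist

/-! A set of `O(n)` pairs which dominates all pairs. -/

namespace Vale.Agent.P249

theorem greedy_step {V : Type} [DecidableEq V] (p C : ℝ) (hp : 0 < p) (hC : 1 ≤ C)
    (d : V × V → ℝ) (s : Finset (V × V)) (hs : ∀ e ∈ s, 0 < d e) :
    ∃ F ⊆ s, (∀ e ∈ s, ∀ u : V → ℝ,
        |u e.1 - u e.2| ^ p ≤ C * d e ^ p * ∑ f ∈ F, |u f.1 - u f.2| ^ p / d f ^ p) ∧
      ∀ H ⊆ F, H.Nonempty → ∃ e ∈ H, ∃ u : V → ℝ,
        C * ∑ f ∈ H.erase e, |u f.1 - u f.2| ^ p < |u e.1 - u e.2| ^ p := by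
  classical
  induction s using Finset.induction_on_max_value d with
  | empty => exact ⟨∅, Finset.Subset.refl _, by simp, fun H hH hne => by
      rw [Finset.subset_empty.1 hH] at hne
      exact absurd hne (by simp)⟩
  | insert a s ha hmax ih =>
    obtain ⟨F, hFs, hdom, hind⟩ := ih (fun e he => hs e (Finset.mem_insert_of_mem he))
    have hterm : ∀ (u : V → ℝ) (f : V × V), f ∈ insert a s →
        0 ≤ |u f.1 - u f.2| ^ p / d f ^ p := fun u f hf =>
      div_nonneg (Real.rpow_nonneg (abs_nonneg _) _) (Real.rpow_nonneg (hs f hf).le _)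
    have hda : 0 < d a := hs a (Finset.mem_insert_self _ _)
    by_cases hA : ∀ u : V → ℝ,
        |u a.1 - u a.2| ^ p ≤ C * d a ^ p * ∑ f ∈ F, |u f.1 - u f.2| ^ p / d f ^ p
    · refine ⟨F, hFs.trans (Finset.subset_insert _ _), ?_, hind⟩
      intro e he u
      rcases Finset.mem_insert.1 he with rfl | he
      · exact hA u
      · exact hdom e he u
    · push Not at hA
      obtain ⟨u0, hu0⟩ := hA
      have haF : a ∉ F := fun h => ha (hFs h)
      refine ⟨insert a F, Finset.insert_subset_insert _ hFs, ?_, ?_⟩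
      · intro e he u
        rw [Finset.sum_insert haF]
        have hsum0 : 0 ≤ ∑ f ∈ F, |u f.1 - u f.2| ^ p / d f ^ p :=
          Finset.sum_nonneg (fun f hf => hterm u f (Finset.mem_insert_of_mem (hFs hf)))
        have hta := hterm u a (Finset.mem_insert_self _ _)
        rcases Finset.mem_insert.1 he with rfl | he
        · have hdp : 0 < d e ^ p := Real.rpow_pos_of_pos hda p
          calc |u e.1 - u e.2| ^ p
              = 1 * d e ^ p * (|u e.1 - u e.2| ^ p / d e ^ p) := by
                field_simp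
            _ ≤ C * d e ^ p * (|u e.1 - u e.2| ^ p / d e ^ p) := by
                apply mul_le_mul_of_nonneg_right _ hta
                exact mul_le_mul_of_nonneg_right hC hdp.le
            _ ≤ _ := by
                apply mul_le_mul_of_nonneg_left _ (by positivity)
                linarith
        · refine (hdom e he u).trans ?_
          have hde : 0 < d e := hs e (Finset.mem_insert_of_mem he)
          apply mul_le_mul_of_nonneg_left _ (mul_nonneg (by linarith)
            (Real.rpow_nonneg hde.le _))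
          linarith
      · intro H hH hne
        by_cases haH : a ∈ H
        · refine ⟨a, haH, u0, lt_of_le_of_lt ?_ hu0⟩
          have hsub : H.erase a ⊆ F := by
            intro f hf
            rw [Finset.mem_erase] at hf
            rcases Finset.mem_insert.1 (hH hf.2) with h | h
            · exact absurd h hf.1
            · exact h
          rw [mul_assoc]
          apply mul_le_mul_of_nonneg_left _ (by linarith)
          rw [Finset.mul_sum]
          calc ∑ f ∈ H.erase a, |u0 f.1 - u0 f.2| ^ p ≤ ∑ f ∈ F, |u0 f.1 - u0 f.2| ^ p := by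
                apply Finset.sum_le_sum_of_subset_of_nonneg hsub
                intro f _ _
                exact Real.rpow_nonneg (abs_nonneg _) _
            _ ≤ ∑ f ∈ F, d a ^ p * (|u0 f.1 - u0 f.2| ^ p / d f ^ p) := by
                apply Finset.sum_le_sum
                intro f hf
                have hdf : 0 < d f := hs f (Finset.mem_insert_of_mem (hFs hf))
                have hle : d f ≤ d a := hmax f (hFs hf)
                have hdfp : 0 < d f ^ p := Real.rpow_pos_of_pos hdf p
                have hpow : d f ^ p ≤ d a ^ p := Real.rpow_le_rpow hdf.le hle hp.le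
                have hx : 0 ≤ |u0 f.1 - u0 f.2| ^ p := Real.rpow_nonneg (abs_nonneg _) _
                calc |u0 f.1 - u0 f.2| ^ p = d f ^ p * (|u0 f.1 - u0 f.2| ^ p / d f ^ p) := by
                      field_simp
                  _ ≤ d a ^ p * (|u0 f.1 - u0 f.2| ^ p / d f ^ p) :=
                      mul_le_mul_of_nonneg_right hpow (div_nonneg hx hdfp.le)
        · apply hind H _ hne
          intro f hf
          rcases Finset.mem_insert.1 (hH hf) with h | h
          · exact absurd (h ▸ hf) haH
          · exact h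

theorem exists_dominating (p : ℝ) (hp : 1 < p) : ∃ C : ℝ, 1 ≤ C ∧
    ∀ (V : Type) [Fintype V] [DecidableEq V] (d : V → V → ℝ), (∀ a b, a ≠ b → 0 < d a b) →
      ∃ F : Finset (V × V), (F.card : ℝ) ≤ C * Fintype.card V ∧ (∀ f ∈ F, f.1 ≠ f.2) ∧
        ∀ (u : V → ℝ) (a b : V), a ≠ b →
          |u a - u b| ^ p ≤ C * d a b ^ p * ∑ f ∈ F, |u f.1 - u f.2| ^ p / d f.1 f.2 ^ p := by
  obtain ⟨C, B, hC, hB, hG⟩ := graph_lemma p hp
  refine ⟨max C B, le_max_of_le_left hC, ?_⟩
  intro V _ _ d hd
  obtain ⟨F, hFs, hdom, hind⟩ := greedy_step p C (by linarith) hC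
    (fun e : V × V => d e.1 e.2) (Finset.univ.filter (fun e : V × V => e.1 ≠ e.2))
    (fun e he => hd _ _ (Finset.mem_filter.1 he).2)
  have hne : ∀ f ∈ F, f.1 ≠ f.2 := fun f hf => (Finset.mem_filter.1 (hFs hf)).2
  have hcard : (F.card : ℝ) ≤ B * Fintype.card V := by
    by_contra hcon
    push Not at hcon
    obtain ⟨H, hHF, hHne, hHdom⟩ := hG V F hne hcon
    obtain ⟨e, he, u, hlt⟩ := hind H hHF hHne
    exact absurd (hHdom e he u) (not_le.2 hlt)
  refine ⟨F, hcard.trans ?_, hne, ?_⟩
  · exact mul_le_mul_of_nonneg_right (le_max_right _ _) (Nat.cast_nonneg _)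
  · intro u a b hab
    have h1 := hdom (a, b) (Finset.mem_filter.2 ⟨Finset.mem_univ _, hab⟩) u
    refine h1.trans ?_
    have hsum0 : 0 ≤ ∑ f ∈ F, |u f.1 - u f.2| ^ p / d f.1 f.2 ^ p :=
      Finset.sum_nonneg (fun f hf => div_nonneg (Real.rpow_nonneg (abs_nonneg _) _)
        (Real.rpow_nonneg (hd _ _ (hne f hf)).le _))
    apply mul_le_mul_of_nonneg_right _ hsum0
    apply mul_le_mul_of_nonneg_right (le_max_left _ _)
    exact Real.rpow_nonneg (hd a b hab).le _

end Vale.Agent.P249
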