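import Vale.Agent.Lib.P249.Defs
import Vale.Agent.Lib.P249.Approx
import Vale.Agent.Lib.P249.Greedy

/-! Assembly: `d_p(n, D) ≤ C n log n`. -/

namespace Vale.Agent.P249

open MeasureTheory
open scoped ENNReal

universe u

/-- the finite coordinates version -/
theorem exists_embedding (p : ℝ) (hp : 1 < p) : ∃ C₁ : ℝ, 1 ≤ C₁ ∧
    ∀ (ε : ℝ), 0 < ε → ε < 1 → ∀ (n N : ℕ), 2 ≤ n →
      (4 * (C₁ * (C₁ * n)) / ε ^ 2) * Real.log (2 * (n : ℝ) ^ 2) < N →
      ∀ (K : Finset (Fin n → ℝ)) (w : (Fin n → ℝ) → ℝ), (∀ k, 0 ≤ w k) →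
      (∀ a b, a ≠ b → 0 < ∑ k ∈ K, w k * |k a - k b| ^ p) →
      ∃ y : Fin n → Fin N → ℝ, ∀ a b,
        |∑ r, |y a r - y b r| ^ p - ∑ k ∈ K, w k * |k a - k b| ^ p|
          ≤ ε * ∑ k ∈ K, w k * |k a - k b| ^ p := by
  classical
  obtain ⟨C₁, hC₁, hdomAll⟩ := exists_dominating p hp
  refine ⟨C₁, hC₁, ?_⟩
  intro ε hε0 hε1 n N hn hN K w hw hpos
  have hp0 : 0 < p := by linarith
  set ρ : Fin n → Fin n → ℝ := fun a b => ∑ k ∈ K, w k * |k a - k b| ^ p with hρ
  have hρ0 : ∀ a b, 0 ≤ ρ a b := fun a b =>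
    Finset.sum_nonneg (fun k _ => mul_nonneg (hw k) (Real.rpow_nonneg (abs_nonneg _) _))
  set d : Fin n → Fin n → ℝ := fun a b => ρ a b ^ (1 / p) with hd
  have hdpos : ∀ a b, a ≠ b → 0 < d a b := fun a b hab => Real.rpow_pos_of_pos (hpos a b hab) _
  have hdp : ∀ a b, d a b ^ p = ρ a b := by
    intro a b
    simp only [hd]
    rw [← Real.rpow_mul (hρ0 a b), one_div, inv_mul_cancel₀ hp0.ne', Real.rpow_one]
  obtain ⟨F, hFcard, hFne, hFdom⟩ := hdomAll (Fin n) d hdpos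
  rw [Fintype.card_fin] at hFcard
  have hnpos : (0 : ℝ) < n := by exact_mod_cast (by omega : 0 < n)
  have hS : 0 < C₁ * (C₁ * n) := by positivity
  -- the dominating function
  let Q : {k // k ∈ K} → ℝ := fun k => C₁ * ∑ f ∈ F, |k.1 f.1 - k.1 f.2| ^ p / d f.1 f.2 ^ p
  have hsumK : ∀ g : (Fin n → ℝ) → ℝ, ∑ k : {k // k ∈ K}, g k.1 = ∑ k ∈ K, g k := by
    intro g
    exact Finset.sum_coe_sort K g
  obtain ⟨y, hy⟩ := exists_small_dim (V := Fin n) (K := {k // k ∈ K}) p hp0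
    (fun a k => k.1 a) (fun k => w k.1) (fun k => hw _) ρ
    (fun a b => by
      simp only [hρ]
      exact (hsumK (fun k => w k * |k a - k b| ^ p)).symm)
    Q
    (fun k => mul_nonneg (by linarith) (Finset.sum_nonneg (fun f hf =>
      div_nonneg (Real.rpow_nonneg (abs_nonneg _) _)
        (Real.rpow_nonneg (hdpos _ _ (hFne f hf)).le _))))
    (fun a b k => by
      rcases eq_or_ne a b with rfl | hab
      · simp only [sub_self, abs_zero]
        rw [Real.zero_rpow hp0.ne']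
        have : ρ a a = 0 := by
          simp only [hρ, sub_self, abs_zero]
          rw [Real.zero_rpow hp0.ne']
          simp
        rw [this, mul_zero]
      · have h1 := hFdom k.1 a b hab
        rw [hdp] at h1
        refine h1.trans (le_of_eq ?_)
        simp only [Q]
        ring)
    (C₁ * (C₁ * n))
    (by
      have e1 : ∑ k : {k // k ∈ K}, w k.1 * Q k
          = C₁ * ∑ f ∈ F, ρ f.1 f.2 / d f.1 f.2 ^ p := by
        calc ∑ k : {k // k ∈ K}, w k.1 * Q k
            = ∑ k ∈ K, w k * (C₁ * ∑ f ∈ F, |k f.1 - k f.2| ^ p / d f.1 f.2 ^ p) :=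
              hsumK (fun k => w k * (C₁ * ∑ f ∈ F, |k f.1 - k f.2| ^ p / d f.1 f.2 ^ p))
          _ = ∑ k ∈ K, ∑ f ∈ F, C₁ * (w k * |k f.1 - k f.2| ^ p / d f.1 f.2 ^ p) := by
              apply Finset.sum_congr rfl
              intro k _
              rw [Finset.mul_sum, Finset.mul_sum]
              apply Finset.sum_congr rfl
              intro f _
              ring
          _ = ∑ f ∈ F, ∑ k ∈ K, C₁ * (w k * |k f.1 - k f.2| ^ p / d f.1 f.2 ^ p) :=
              Finset.sum_comm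
          _ = C₁ * ∑ f ∈ F, ρ f.1 f.2 / d f.1 f.2 ^ p := by
              rw [Finset.mul_sum]
              apply Finset.sum_congr rfl
              intro f _
              rw [← Finset.mul_sum, ← Finset.sum_div]
      rw [e1]
      apply mul_le_mul_of_nonneg_left _ (by linarith)
      refine le_trans (le_of_eq ?_) hFcard
      rw [Finset.card_eq_sum_ones]
      push_cast
      apply Finset.sum_congr rfl
      intro f hf
      rw [hdp]
      exact div_self (hpos _ _ (hFne f hf)).ne')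
    N ε hε0 hε1.le
    (by
      rw [Fintype.card_fin]
      have h2n : (0 : ℝ) < 2 * (n : ℝ) ^ 2 := by positivity
      have h1 : Real.log (2 * (n : ℝ) ^ 2) < ε ^ 2 / 4 * (N / (C₁ * (C₁ * n))) := by
        have h3 : Real.log (2 * (n : ℝ) ^ 2)
            = ε ^ 2 / 4 * ((4 * (C₁ * (C₁ * n)) / ε ^ 2 * Real.log (2 * (n : ℝ) ^ 2))
              / (C₁ * (C₁ * n))) := by
          field_simp
        rw [h3]
        apply mul_lt_mul_of_pos_left _ (by positivity)
        exact div_lt_div_of_pos_right hN hS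
      calc 2 * (n : ℝ) ^ 2 * Real.exp (-(ε ^ 2 / 4) * (N / (C₁ * (C₁ * n))))
          < 2 * (n : ℝ) ^ 2 * Real.exp (-Real.log (2 * (n : ℝ) ^ 2)) := by
            apply mul_lt_mul_of_pos_left _ h2n
            apply Real.exp_lt_exp.2
            linarith
        _ = 1 := by
            rw [Real.exp_neg, Real.exp_log h2n]
            exact mul_inv_cancel₀ h2n.ne')
  exact ⟨y, hy⟩

theorem lpNorm_bounds {p : ℝ} (hp : 1 < p) {ε R T : ℝ} (hε0 : 0 < ε) (hε1 : ε < 1)
    (hR : 0 ≤ R) (hT : |T - R| ≤ ε * R) :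
    (1 - ε) * R ^ (1 / p) ≤ T ^ (1 / p) ∧ T ^ (1 / p) ≤ (1 + ε) * R ^ (1 / p) := by
  have hp0 : 0 < p := by linarith
  have h1 := abs_le.1 hT
  have hlow : (1 - ε) * R ≤ T := by linarith [h1.1]
  have hup : T ≤ (1 + ε) * R := by linarith [h1.2]
  have hT0 : 0 ≤ T := le_trans (mul_nonneg (by linarith) hR) hlow
  have hp1 : 1 / p ≤ 1 := by
    rw [div_le_one hp0]
    exact hp.le
  have hpp : 0 ≤ 1 / p := by positivity
  constructor
  · calc (1 - ε) * R ^ (1 / p) ≤ (1 - ε) ^ (1 / p) * R ^ (1 / p) := by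
          apply mul_le_mul_of_nonneg_right _ (Real.rpow_nonneg hR _)
          have := Real.rpow_le_rpow_of_exponent_ge (x := 1 - ε) (by linarith) (by linarith) hp1
          rwa [Real.rpow_one] at this
      _ = ((1 - ε) * R) ^ (1 / p) := by
          rw [Real.mul_rpow (by linarith) hR]
      _ ≤ T ^ (1 / p) := Real.rpow_le_rpow (mul_nonneg (by linarith) hR) hlow hpp
  · calc T ^ (1 / p) ≤ ((1 + ε) * R) ^ (1 / p) := Real.rpow_le_rpow hT0 hup hpp
      _ = (1 + ε) ^ (1 / p) * R ^ (1 / p) := by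
          rw [Real.mul_rpow (by linarith) hR]
      _ ≤ (1 + ε) * R ^ (1 / p) := by
          apply mul_le_mul_of_nonneg_right _ (Real.rpow_nonneg hR _)
          have := Real.rpow_le_rpow_of_exponent_le (x := 1 + ε) (by linarith) hp1
          rwa [Real.rpow_one] at this

theorem admits (p : ℝ) (hp : 1 < p) (D : ℝ) (hD : 1 < D) : ∃ C : ℝ, 0 < C ∧
    ∀ n : ℕ, 2 ≤ n → ∃ N : ℕ, (N : ℝ) ≤ C * n * Real.log n ∧ Admits.{u} p D n N := by
  classical
  obtain ⟨C₁, hC₁, hemb⟩ := exists_embedding p hp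
  have hp0 : 0 < p := by linarith
  -- choice of epsilon
  set D' : ℝ := Real.sqrt D with hD'
  have hD'1 : 1 < D' := by
    rw [hD', Real.lt_sqrt (by norm_num)]
    linarith
  have hD'2 : D' ^ 2 = D := Real.sq_sqrt (by linarith)
  set ε : ℝ := (D' - 1) / (D' + 1) with hε
  have hε0 : 0 < ε := div_pos (by linarith) (by linarith)
  have hε1 : ε < 1 := by
    rw [hε, div_lt_one (by linarith)]
    linarith
  have hεD : 1 + ε = D' * (1 - ε) := by
    rw [hε]
    field_simp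
    ring
  refine ⟨12 * C₁ ^ 2 / ε ^ 2 + 1, by positivity, ?_⟩
  intro n hn
  have hn2 : (2 : ℝ) ≤ n := by exact_mod_cast hn
  have hlog2 : Real.log 2 ≤ Real.log n := Real.log_le_log (by norm_num) hn2
  have hl2 : 0.6931471803 < Real.log 2 := Real.log_two_gt_d9
  have hlogn : 0 < Real.log n := by linarith
  set M : ℝ := (4 * (C₁ * (C₁ * n)) / ε ^ 2) * Real.log (2 * (n : ℝ) ^ 2) with hM
  have hlogle : Real.log (2 * (n : ℝ) ^ 2) ≤ 3 * Real.log n := by
    rw [Real.log_mul (by norm_num) (by positivity), Real.log_pow]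
    push_cast
    linarith
  have hlog0 : 0 ≤ Real.log (2 * (n : ℝ) ^ 2) := Real.log_nonneg (by nlinarith)
  have hM0 : 0 ≤ M := by positivity
  have hMle : M ≤ 12 * C₁ ^ 2 / ε ^ 2 * n * Real.log n := by
    calc M ≤ (4 * (C₁ * (C₁ * n)) / ε ^ 2) * (3 * Real.log n) :=
          mul_le_mul_of_nonneg_left hlogle (by positivity)
      _ = 12 * C₁ ^ 2 / ε ^ 2 * n * Real.log n := by ring
  refine ⟨⌊M⌋₊ + 1, ?_, ?_⟩
  · push_cast
    have h1 : (⌊M⌋₊ : ℝ) ≤ M := Nat.floor_le hM0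
    have h2 : 1 ≤ n * Real.log n := by nlinarith
    calc (⌊M⌋₊ : ℝ) + 1 ≤ 12 * C₁ ^ 2 / ε ^ 2 * n * Real.log n + n * Real.log n := by linarith
      _ = (12 * C₁ ^ 2 / ε ^ 2 + 1) * n * Real.log n := by ring
  · intro Ω _ μ X hX
    set N : ℕ := ⌊M⌋₊ + 1 with hNdef
    have hN : M < N := by
      rw [hNdef]
      push_cast
      exact Nat.lt_floor_add_one M
    let e := X.equivFinOfCardEq hX
    let x : Fin n → Lp ℝ (ENNReal.ofReal p) μ := fun i => (e.symm i : Lp ℝ (ENNReal.ofReal p) μ)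
    have hx : Function.Injective x := fun i j h => e.symm.injective (Subtype.ext h)
    obtain ⟨K, w, hw, hK⟩ := exists_finite_rep μ p hp.le x hx ε hε0
    have hp' : Fact (1 ≤ ENNReal.ofReal p) := ⟨by
      rw [← ENNReal.ofReal_one]; exact ENNReal.ofReal_le_ofReal hp.le⟩
    have hpos : ∀ a b, a ≠ b → 0 < ∑ k ∈ K, w k * |k a - k b| ^ p := by
      intro a b hab
      have h1 : 0 < ‖x a - x b‖ := norm_pos_iff.mpr (sub_ne_zero.mpr (fun h => hab (hx h)))
      have h2 : 0 < (∑ k ∈ K, w k * |k a - k b| ^ p) ^ (1 / p) :=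
        lt_of_lt_of_le (mul_pos (by linarith) h1) (hK a b).1
      by_contra hcon
      have h3 : ∑ k ∈ K, w k * |k a - k b| ^ p = 0 := le_antisymm (not_lt.1 hcon)
        (Finset.sum_nonneg (fun k _ => mul_nonneg (hw k) (Real.rpow_nonneg (abs_nonneg _) _)))
      rw [h3, Real.zero_rpow (by positivity)] at h2
      exact lt_irrefl _ h2
    obtain ⟨y, hy⟩ := hemb ε hε0 hε1 n N hn hN K w hw hpos
    refine ⟨fun z => if h : z ∈ X then y (e ⟨z, h⟩) else 0, (1 - ε) * (1 - ε),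
      mul_pos (by linarith) (by linarith), ?_⟩
    intro z hz z' hz'
    simp only [hz, hz', dif_pos]
    set a := e ⟨z, hz⟩ with ha
    set b := e ⟨z', hz'⟩ with hb
    have hxa : x a = z := by simp [x, ha]
    have hxb : x b = z' := by simp [x, hb]
    have hKab := hK a b
    rw [hxa, hxb] at hKab
    set R : ℝ := ∑ k ∈ K, w k * |k a - k b| ^ p with hR
    have hR0 : 0 ≤ R :=
      Finset.sum_nonneg (fun k _ => mul_nonneg (hw k) (Real.rpow_nonneg (abs_nonneg _) _))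
    have hb2 := lpNorm_bounds hp hε0 hε1 hR0 (hy a b)
    have hnorm : lpNorm p (y a - y b) = (∑ r, |y a r - y b r| ^ p) ^ (1 / p) := rfl
    rw [hnorm]
    constructor
    · calc (1 - ε) * (1 - ε) * ‖z - z'‖ = (1 - ε) * ((1 - ε) * ‖z - z'‖) := by ring
        _ ≤ (1 - ε) * R ^ (1 / p) := mul_le_mul_of_nonneg_left hKab.1 (by linarith)
        _ ≤ _ := hb2.1
    · calc (∑ r, |y a r - y b r| ^ p) ^ (1 / p) ≤ (1 + ε) * R ^ (1 / p) := hb2.2
        _ ≤ (1 + ε) * ((1 + ε) * ‖z - z'‖) := mul_le_mul_of_nonneg_left hKab.2 (by linarith)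
        _ = (D' * (1 - ε)) * ((D' * (1 - ε)) * ‖z - z'‖) := by rw [← hεD]
        _ = D' ^ 2 * ((1 - ε) * (1 - ε)) * ‖z - z'‖ := by ring
        _ = D * ((1 - ε) * (1 - ε)) * ‖z - z'‖ := by rw [hD'2]

end Vale.Agent.P249
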