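import Mathlib

/-!
Gaussian preliminaries: absolute continuity and moments of linear functionals.
-/

namespace Vale.Agent.P249

open MeasureTheory ProbabilityTheory Filter Topology
open scoped ENNReal NNReal RealInnerProductSpace

/-- Euclidean space -/
abbrev Eu (k : ℕ) : Type := EuclideanSpace ℝ (Fin k)

lemma pi_ac (μ ν : Measure ℝ) [SigmaFinite μ] [SigmaFinite ν] (h : μ ≪ ν) (k : ℕ) :
    Measure.pi (fun _ : Fin k => μ) ≪ Measure.pi (fun _ : Fin k => ν) := by
  induction k with
  | zero =>
    intro s hs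
    have h1 : Measure.pi (fun _ : Fin 0 => μ) = Measure.dirac 0 := by
      rw [Measure.pi_of_empty]; congr 1; exact Subsingleton.elim _ _
    have h2 : Measure.pi (fun _ : Fin 0 => ν) = Measure.dirac 0 := by
      rw [Measure.pi_of_empty]; congr 1; exact Subsingleton.elim _ _
    rw [h1]; rw [h2] at hs; exact hs
  | succ k ih =>
    have e1 := (measurePreserving_piFinSuccAbove (fun _ : Fin (k + 1) => μ) 0).symm.map_eq
    have e2 := (measurePreserving_piFinSuccAbove (fun _ : Fin (k + 1) => ν) 0).symm.map_eq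
    rw [← e1, ← e2]
    exact (h.prod ih).map (MeasurableEquiv.measurable _)

lemma stdGaussian_ac (k : ℕ) : stdGaussian (Eu k) ≪ (volume : Measure (Eu k)) := by
  rw [← map_pi_eq_stdGaussian, ← (PiLp.volume_preserving_toLp (Fin k)).map_eq]
  refine Measure.AbsolutelyContinuous.map ?_ (by fun_prop)
  exact pi_ac _ _ (gaussianReal_absolutelyContinuous 0 one_ne_zero) k

/-- the absolute `p`-th moment of a standard Gaussian -/
noncomputable def gmom (p : ℝ) : ℝ := ∫ t, |t| ^ p ∂(gaussianReal 0 1)

lemma integrable_gmom {p : ℝ} (hp : 0 < p) : Integrable (fun t : ℝ => |t| ^ p) (gaussianReal 0 1) := by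
  have h := (memLp_id_gaussianReal (μ := 0) (v := 1) (Real.toNNReal p)).integrable_norm_rpow
    (by simpa using hp) (by simp)
  simpa [Real.toNNReal_of_nonneg hp.le, Real.coe_toNNReal p hp.le] using h

lemma gmom_pos {p : ℝ} (hp : 0 < p) : 0 < gmom p := by
  unfold gmom
  rw [integral_pos_iff_support_of_nonneg (fun t => Real.rpow_nonneg (abs_nonneg t) p)
    (integrable_gmom hp)]
  have : Function.support (fun t : ℝ => |t| ^ p) = {0}ᶜ := by
    ext t
    simp only [Function.mem_support, Set.mem_compl_iff, Set.mem_singleton_iff]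
    constructor
    · intro h1 h2; rw [h2] at h1; simp [Real.zero_rpow hp.ne'] at h1
    · intro h1; exact (Real.rpow_pos_of_pos (abs_pos.mpr h1) p).ne'
  rw [this, prob_compl_eq_one_sub (measurableSet_singleton 0)]
  have h0 : gaussianReal 0 1 {(0:ℝ)} = 0 := by
    have := gaussianReal_absolutelyContinuous 0 (one_ne_zero : (1:ℝ≥0) ≠ 0)
    exact this (by simp)
  rw [h0]; simp

lemma map_dual_stdGaussian (k : ℕ) (ℓ : StrongDual ℝ (Eu k)) :
    (stdGaussian (Eu k)).map ℓ = (gaussianReal 0 1).map (fun t => ‖ℓ‖ * t) := by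
  rw [IsGaussian.map_eq_gaussianReal, variance_dual_stdGaussian, integral_strongDual_stdGaussian,
    gaussianReal_map_const_mul]
  congr 1
  · simp
  · ext; simp

lemma integral_dual_rpow (k : ℕ) {p : ℝ} (ℓ : StrongDual ℝ (Eu k)) :
    ∫ y, |ℓ y| ^ p ∂(stdGaussian (Eu k)) = ‖ℓ‖ ^ p * gmom p := by
  have h1 : ∫ y, |ℓ y| ^ p ∂(stdGaussian (Eu k))
      = ∫ t, |t| ^ p ∂((stdGaussian (Eu k)).map ℓ) := by
    rw [integral_map ℓ.continuous.aemeasurable]
    exact (by fun_prop : Measurable fun t : ℝ => |t| ^ p).aestronglyMeasurable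
  rw [h1, map_dual_stdGaussian, integral_map (by fun_prop)
    (by fun_prop : Measurable fun t : ℝ => |t| ^ p).aestronglyMeasurable]
  unfold gmom
  rw [← integral_const_mul]
  refine integral_congr_ae (Eventually.of_forall fun t => ?_)
  simp only
  rw [abs_mul, abs_norm, Real.mul_rpow (norm_nonneg _) (abs_nonneg _)]

lemma integrable_dual_rpow (k : ℕ) {p : ℝ} (hp : 0 < p) (ℓ : StrongDual ℝ (Eu k)) :
    Integrable (fun y => |ℓ y| ^ p) (stdGaussian (Eu k)) := by
  have h2 : Integrable (fun t : ℝ => |t| ^ p) ((stdGaussian (Eu k)).map ℓ) := by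
    rw [map_dual_stdGaussian, integrable_map_measure
      (by fun_prop : Measurable fun t : ℝ => |t| ^ p).aestronglyMeasurable (by fun_prop)]
    refine ((integrable_gmom hp).const_mul (‖ℓ‖ ^ p)).congr (Eventually.of_forall fun t => ?_)
    simp only [Function.comp]
    rw [abs_mul, abs_norm, Real.mul_rpow (norm_nonneg _) (abs_nonneg _)]
  exact h2.comp_measurable ℓ.continuous.measurable

end Vale.Agent.P249
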