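import Vale.Agent.Lib.P249.GraphIneq

/-!
The graph lemma: a dense graph has a nonempty subgraph all of whose edges are well connected
(bounded `p`-resistance) inside the rest of the subgraph.
-/

namespace Vale.Agent.P249

open Finset

section Basic
variable {V : Type*} [DecidableEq V]

/-- edges inside `S` -/
def insE (H : Finset (V × V)) (S : Finset V) : Finset (V × V) :=
  H.filter fun e => e.1 ∈ S ∧ e.2 ∈ S

/-- edges with exactly one end in `S` -/
def bdE (H : Finset (V × V)) (S : Finset V) : Finset (V × V) :=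
  H.filter fun e => ¬ (e.1 ∈ S ↔ e.2 ∈ S)

/-- volume -/
noncomputable def volE (H : Finset (V × V)) (S : Finset V) : ℝ :=
  ∑ e ∈ H, ((if e.1 ∈ S then (1:ℝ) else 0) + (if e.2 ∈ S then (1:ℝ) else 0))

lemma volE_eq (H : Finset (V × V)) (S : Finset V) :
    volE H S = 2 * ((insE H S).card : ℝ) + ((bdE H S).card : ℝ) := by
  unfold volE insE bdE
  rw [Finset.card_filter, Finset.card_filter]
  push_cast
  rw [Finset.mul_sum, ← Finset.sum_add_distrib]
  refine Finset.sum_congr rfl fun e _ => ?_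
  by_cases h1 : e.1 ∈ S <;> by_cases h2 : e.2 ∈ S <;> simp [h1, h2] <;> norm_num

lemma volE_mono (H : Finset (V × V)) {S S' : Finset V} (h : S ⊆ S') : volE H S ≤ volE H S' := by
  unfold volE
  refine Finset.sum_le_sum fun e _ => add_le_add ?_ ?_
  · by_cases h1 : e.1 ∈ S
    · rw [if_pos h1, if_pos (h h1)]
    · rw [if_neg h1]; split_ifs <;> norm_num
  · by_cases h1 : e.2 ∈ S
    · rw [if_pos h1, if_pos (h h1)]
    · rw [if_neg h1]; split_ifs <;> norm_num

lemma volE_add_le (H : Finset (V × V)) {S S' : Finset V} (h : Disjoint S S') :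
    volE H S + volE H S' ≤ 2 * (H.card : ℝ) := by
  unfold volE
  rw [← Finset.sum_add_distrib, Finset.card_eq_sum_ones]
  push_cast
  rw [Finset.mul_sum]
  refine Finset.sum_le_sum fun e _ => ?_
  have h1 : ¬ (e.1 ∈ S ∧ e.1 ∈ S') := fun hh => (Finset.disjoint_left.mp h hh.1) hh.2
  have h2 : ¬ (e.2 ∈ S ∧ e.2 ∈ S') := fun hh => (Finset.disjoint_left.mp h hh.1) hh.2
  by_cases a1 : e.1 ∈ S <;> by_cases a2 : e.1 ∈ S' <;> by_cases a3 : e.2 ∈ S <;>
    by_cases a4 : e.2 ∈ S' <;> simp [a1, a2, a3, a4] at h1 h2 ⊢ <;> norm_num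

end Basic

lemma rpow_sub_le_rpow {θ a b : ℝ} (hθ0 : 0 ≤ θ) (hθ1 : θ ≤ 1) (ha : 0 ≤ a) (hb : 0 ≤ b) :
    (a + b) ^ θ ≤ a ^ θ + b ^ θ := by
  have := NNReal.rpow_add_le_add_rpow ⟨a, ha⟩ ⟨b, hb⟩ hθ0 hθ1
  exact_mod_cast this

/-- extraction of an expanding subgraph -/
theorem exists_good {V : Type*} [Fintype V] [DecidableEq V] {p K A de : ℝ} (hp : 1 < p)
    (hK : 0 < K)
    (hA : A * (2 - 2 ^ (1 - 1 / (2 * p))) = 6 * K) (hA0 : 0 < A)
    (hde : de = 3 * (3 * K + A) ^ (2 * p)) (hde1 : 1 ≤ 3 * K + A)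
    (F : Finset (V × V)) (hF : (de + A * de) * (Fintype.card V : ℝ) < F.card) :
    ∃ H ⊆ F, H.Nonempty ∧ ∀ S : Finset V, 0 < volE H S → volE H S ≤ H.card →
      K * (volE H S) ^ (1 - 1 / (2 * p)) ≤ (bdE H S).card := by
  classical
  set θ : ℝ := 1 - 1 / (2 * p) with hθ
  have hp2 : 0 < 2 * p := by linarith
  have hinv : 0 < 1 / (2 * p) := by positivity
  have hinv1 : 1 / (2 * p) < 1 := by rw [div_lt_one hp2]; linarith
  have hθ0 : 0 < θ := by rw [hθ]; linarith
  have hθ1 : θ ≤ 1 := by rw [hθ]; linarith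
  have hpow1 : 1 ≤ (3 * K + A) ^ (2 * p) := Real.one_le_rpow hde1 hp2.le
  have hde3 : 1 ≤ de := by rw [hde]; linarith
  set B : ℝ := de + A * de with hB
  have hB0 : 0 < B := by positivity
  set Ψ : Finset V → ℝ := fun W => ((insE F W).card : ℝ) + A * ((insE F W).card : ℝ) ^ θ
    - B * (W.card : ℝ) with hΨ
  set fam : Finset (Finset V) := Finset.univ.filter fun W => 0 < Ψ W with hfam
  have hne : fam.Nonempty := by
    refine ⟨Finset.univ, Finset.mem_filter.mpr ⟨Finset.mem_univ _, ?_⟩⟩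
    have e : insE F Finset.univ = F := by
      unfold insE; exact Finset.filter_true_of_mem (by simp)
    simp only [hΨ, e, Finset.card_univ]
    have : 0 ≤ A * (F.card : ℝ) ^ θ := mul_nonneg hA0.le (Real.rpow_nonneg (Nat.cast_nonneg _) _)
    linarith
  obtain ⟨W, hWmem, hWmin⟩ := Finset.exists_min_image fam (fun W => W.card) hne
  have hWpos : 0 < Ψ W := (Finset.mem_filter.mp hWmem).2
  have hmin : ∀ W' : Finset V, W'.card < W.card → Ψ W' ≤ 0 := by
    intro W' hlt
    by_contra hcon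
    push Not at hcon
    have := hWmin W' (Finset.mem_filter.mpr ⟨Finset.mem_univ _, hcon⟩)
    omega
  set H := insE F W with hH
  have hHW : ∀ e ∈ H, e.1 ∈ W ∧ e.2 ∈ W := fun e he => (Finset.mem_filter.mp he).2
  have hHne : H.Nonempty := by
    by_contra hcon
    rw [Finset.not_nonempty_iff_eq_empty] at hcon
    have : Ψ W = 0 + A * (0:ℝ) ^ θ - B * (W.card : ℝ) := by
      simp only [hΨ, ← hH, hcon, Finset.card_empty, Nat.cast_zero]
    rw [this, Real.zero_rpow hθ0.ne'] at hWpos
    have : 0 ≤ B * (W.card : ℝ) := mul_nonneg hB0.le (Nat.cast_nonneg _)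
    linarith
  have hHcard : (0:ℝ) < H.card := by exact_mod_cast Finset.card_pos.mpr hHne
  -- minimum degree
  have hdeg : ∀ v ∈ W, de ≤ ((H.filter fun e => e.1 = v ∨ e.2 = v).card : ℝ) := by
    intro v hv
    set Dv := H.filter fun e => e.1 = v ∨ e.2 = v with hDv
    have h1 : insE F (W.erase v) = H \ Dv := by
      ext e
      simp only [insE, hH, hDv, Finset.mem_filter, Finset.mem_erase, Finset.mem_sdiff, not_and,
        not_or, ne_eq]
      constructor
      · rintro ⟨a, ⟨b, c⟩, d, f⟩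
        exact ⟨⟨a, c, f⟩, fun _ => ⟨b, d⟩⟩
      · rintro ⟨⟨a, c, f⟩, g⟩
        obtain ⟨b, d⟩ := g ⟨a, c, f⟩
        exact ⟨a, ⟨b, c⟩, d, f⟩
    have h2 := hmin (W.erase v) (Finset.card_erase_lt_of_mem hv)
    have hsub : Dv ⊆ H := Finset.filter_subset _ _
    have h3 : ((H \ Dv).card : ℝ) + (Dv.card : ℝ) = H.card := by
      exact_mod_cast Finset.card_sdiff_add_card_eq_card hsub
    have h4 : ((W.erase v).card : ℝ) = W.card - 1 := by
      rw [Finset.card_erase_of_mem hv, Nat.cast_sub (Finset.card_pos.mpr ⟨v, hv⟩)]; simp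
    simp only [hΨ, h1, h4] at h2
    have h5 : (0:ℝ) < (H.card : ℝ) + A * (H.card : ℝ) ^ θ - B * (W.card : ℝ) := hWpos
    have h6 := rpow_sub_le_rpow hθ0.le hθ1 (Nat.cast_nonneg (H \ Dv).card)
      (Nat.cast_nonneg (α := ℝ) Dv.card)
    rw [h3] at h6
    by_contra hcon
    push Not at hcon
    have h7 : (Dv.card : ℝ) ^ θ ≤ de := by
      calc (Dv.card : ℝ) ^ θ ≤ de ^ θ := Real.rpow_le_rpow (Nat.cast_nonneg _) hcon.le hθ0.le
        _ ≤ de ^ (1:ℝ) := Real.rpow_le_rpow_of_exponent_le hde3 hθ1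
        _ = de := Real.rpow_one de
    have h8 := mul_le_mul_of_nonneg_left h6 hA0.le
    have h9 := mul_le_mul_of_nonneg_left h7 hA0.le
    rw [mul_add] at h8
    linarith
  refine ⟨H, Finset.filter_subset _ _, hHne, fun S hS0 hS1 => ?_⟩
  by_contra hcon
  push Not at hcon
  set x : ℝ := ((insE H S).card : ℝ) with hx
  set z : ℝ := ((bdE H S).card : ℝ) with hz
  set y : ℝ := ((insE F (W \ S)).card : ℝ) with hy
  have hx0 : 0 ≤ x := Nat.cast_nonneg _
  have hz0 : 0 ≤ z := Nat.cast_nonneg _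
  have hvol : volE H S = 2 * x + z := volE_eq H S
  have hxS : insE H S = insE F (W ∩ S) := by
    ext e
    simp only [insE, hH, Finset.mem_filter, Finset.mem_inter]
    tauto
  have hsum : (H.card : ℝ) = x + y + z := by
    have e1 : H = insE H S ∪ (insE F (W \ S) ∪ bdE H S) := by
      ext e
      simp only [insE, bdE, hH, Finset.mem_union, Finset.mem_filter, Finset.mem_sdiff]
      tauto
    have d1 : Disjoint (insE F (W \ S)) (bdE H S) := by
      rw [Finset.disjoint_left]
      intro e he1 he2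
      simp only [insE, bdE, Finset.mem_filter, Finset.mem_sdiff] at he1 he2
      tauto
    have d2 : Disjoint (insE H S) (insE F (W \ S) ∪ bdE H S) := by
      rw [Finset.disjoint_left]
      intro e he1 he2
      simp only [insE, bdE, Finset.mem_filter, Finset.mem_sdiff, Finset.mem_union] at he1 he2
      tauto
    have := congrArg Finset.card e1
    rw [Finset.card_union_of_disjoint d2, Finset.card_union_of_disjoint d1] at this
    have h2 : (H.card : ℝ) = x + (y + z) := by
      rw [hx, hy, hz]; exact_mod_cast this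
    linarith
  have hxy : x ≤ y := by rw [hvol, hsum] at hS1; linarith
  -- proper subsets
  have hcardW : ((W ∩ S).card : ℝ) + ((W \ S).card : ℝ) = W.card := by
    exact_mod_cast Finset.card_inter_add_card_sdiff W S
  have hprop1 : (W ∩ S).card < W.card := by
    refine Finset.card_lt_card ⟨Finset.inter_subset_left, fun hcon2 => ?_⟩
    have h1 : W ∩ S = W := Finset.Subset.antisymm Finset.inter_subset_left hcon2
    have h2 : x = H.card := by rw [hx, hxS, h1]
    rw [hvol, h2] at hS1
    linarith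
  have hprop2 : (W \ S).card < W.card := by
    refine Finset.card_lt_card ⟨Finset.sdiff_subset, fun hcon2 => ?_⟩
    have h1 : ∀ v ∈ W, v ∉ S := fun v hv => (Finset.mem_sdiff.mp (hcon2 hv)).2
    have h2 : volE H S = 0 := by
      unfold volE
      refine Finset.sum_eq_zero fun e he => ?_
      have := hHW e he
      rw [if_neg (h1 _ this.1), if_neg (h1 _ this.2)]; ring
    rw [h2] at hS0; exact lt_irrefl _ hS0
  have hm1 := hmin _ hprop1
  have hm2 := hmin _ hprop2
  simp only [hΨ, ← hxS, ← hx] at hm1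
  simp only [hΨ, ← hy] at hm2
  have h5 : (0:ℝ) < (H.card : ℝ) + A * (H.card : ℝ) ^ θ - B * (W.card : ℝ) := hWpos
  -- degree bound gives a lower bound for the volume
  have hvolde : de ≤ 2 * x + z := by
    rw [← hvol]
    obtain ⟨e, he, hepos⟩ : ∃ e ∈ H, e.1 ∈ S ∨ e.2 ∈ S := by
      by_contra hno
      push Not at hno
      have h2 : volE H S = 0 := by
        unfold volE
        refine Finset.sum_eq_zero fun e he => ?_
        rw [if_neg (hno e he).1, if_neg (hno e he).2]; ring
      rw [h2] at hS0; exact lt_irrefl _ hS0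
    have hkey : ∀ v ∈ W, v ∈ S → de ≤ volE H S := by
      intro v hvW hvS
      refine (hdeg v hvW).trans ?_
      unfold volE
      rw [Finset.card_filter]
      push_cast
      refine Finset.sum_le_sum fun f _ => ?_
      by_cases h1 : f.1 = v
      · have : f.1 ∈ S := h1 ▸ hvS
        rw [if_pos (Or.inl h1), if_pos this]; split_ifs <;> norm_num
      · by_cases h2 : f.2 = v
        · have : f.2 ∈ S := h2 ▸ hvS
          rw [if_pos (Or.inr h2), if_pos this]; split_ifs <;> norm_num
        · rw [if_neg (by tauto)]; split_ifs <;> norm_num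
    rcases hepos with h | h
    · exact hkey _ (hHW e he).1 h
    · exact hkey _ (hHW e he).2 h
  rw [hvol] at hcon
  have hfin := cut_ineq hp hK hA hA0 hde hde1 hx0 hxy hz0 hvolde hcon
  rw [hsum] at h5
  have hBW : B * ((W ∩ S).card : ℝ) + B * ((W \ S).card : ℝ) = B * W.card := by
    rw [← mul_add, hcardW]
  have hfin' : z ≤ A * x ^ θ + A * y ^ θ - A * (x + y + z) ^ θ := by
    have e : A * x ^ θ + A * y ^ θ - A * (x + y + z) ^ θ
      = A * (x ^ θ + y ^ θ - (x + y + z) ^ θ) := by ring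
    rw [e]; exact hfin
  linarith

end Vale.Agent.P249
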