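import Mathlib

/-!
Real inequalities for the graph lemma.
-/

namespace Vale.Agent.P249

/-- concavity of `t ↦ t^θ` in the form used for sparse cuts -/
lemma concave_split {θ x y : ℝ} (hθ0 : 0 ≤ θ) (hθ1 : θ ≤ 1) (hx : 0 ≤ x) (hxy : x ≤ y) :
    x ^ θ + (x + y) ^ θ ≤ y ^ θ + (2 * x) ^ θ := by
  rcases hx.eq_or_lt with h0 | hx0
  · subst h0; simp [add_comm]
  have hy0 : 0 < y := lt_of_lt_of_le hx0 hxy
  have hc := Real.concaveOn_rpow hθ0 hθ1
  have hlam0 : 0 ≤ (y - x) / y := div_nonneg (by linarith) hy0.le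
  have hlam1 : 0 ≤ x / y := div_nonneg hx hy0.le
  have hsum : (y - x) / y + x / y = 1 := by field_simp; ring
  have hsum' : x / y + (y - x) / y = 1 := by field_simp; ring
  have h1 := hc.2 (Set.mem_Ici.mpr hx) (Set.mem_Ici.mpr (by linarith : 0 ≤ x + y)) hlam0 hlam1 hsum
  have h2 := hc.2 (Set.mem_Ici.mpr hx) (Set.mem_Ici.mpr (by linarith : 0 ≤ x + y)) hlam1 hlam0 hsum'
  simp only [smul_eq_mul] at h1 h2
  have e1 : (y - x) / y * x + x / y * (x + y) = 2 * x := by field_simp; ring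
  have e2 : x / y * x + (y - x) / y * (x + y) = y := by field_simp; ring
  rw [e1] at h1
  rw [e2] at h2
  have h3 : (y - x) / y = 1 - x / y := by linarith
  rw [h3] at h1 h2
  nlinarith

/-- Bernoulli -/
lemma bernoulli_add {θ s z : ℝ} (hθ0 : 0 ≤ θ) (hθ1 : θ ≤ 1) (hs : 0 < s) (hz : 0 ≤ z) :
    (s + z) ^ θ ≤ s ^ θ + z * s ^ (θ - 1) := by
  have h1 := rpow_one_add_le_one_add_mul_self (s := z / s) (p := θ)
    (by have := div_nonneg hz hs.le; linarith) hθ0 hθ1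
  have e1 : s + z = s * (1 + z / s) := by field_simp
  have h2 : 0 ≤ 1 + z / s := by have := div_nonneg hz hs.le; linarith
  rw [e1, Real.mul_rpow hs.le h2]
  have h3 : s ^ (θ - 1) = s ^ θ / s := by rw [Real.rpow_sub_one hs.ne']
  rw [h3]
  have h4 : 0 < s ^ θ := Real.rpow_pos_of_pos hs θ
  calc s ^ θ * (1 + z / s) ^ θ ≤ s ^ θ * (1 + θ * (z / s)) := mul_le_mul_of_nonneg_left h1 h4.le
    _ ≤ s ^ θ * (1 + 1 * (z / s)) := by
        refine mul_le_mul_of_nonneg_left ?_ h4.le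
        have := mul_le_mul_of_nonneg_right hθ1 (div_nonneg hz hs.le)
        linarith
    _ = s ^ θ + z * (s ^ θ / s) := by ring

/-- the main inequality: a sparse cut would contradict minimality -/
lemma cut_ineq {p K A de x y z : ℝ} (hp : 1 < p) (hK : 0 < K)
    (hA : A * (2 - 2 ^ (1 - 1 / (2 * p))) = 6 * K) (hA0 : 0 < A)
    (hde : de = 3 * (3 * K + A) ^ (2 * p)) (hde1 : 1 ≤ 3 * K + A)
    (hx : 0 ≤ x) (hxy : x ≤ y) (hz : 0 ≤ z) (hvol : de ≤ 2 * x + z)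
    (hcut : z < K * (2 * x + z) ^ (1 - 1 / (2 * p))) :
    z ≤ A * (x ^ (1 - 1 / (2 * p)) + y ^ (1 - 1 / (2 * p)) - (x + y + z) ^ (1 - 1 / (2 * p))) := by
  set θ : ℝ := 1 - 1 / (2 * p) with hθ
  have hp2 : 0 < 2 * p := by linarith
  have hinv : 0 < 1 / (2 * p) := by positivity
  have hinv1 : 1 / (2 * p) < 1 := by rw [div_lt_one hp2]; linarith
  have hθ0 : 0 ≤ θ := by rw [hθ]; linarith
  have hθ1 : θ ≤ 1 := by rw [hθ]; linarith
  have hbase : 0 < 3 * K + A := by linarith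
  have hpow1 : 1 ≤ (3 * K + A) ^ (2 * p) := Real.one_le_rpow hde1 hp2.le
  have hde0 : 0 < de := by rw [hde]; linarith
  set v := 2 * x + z with hv
  have hv0 : 0 < v := by linarith
  -- v^(1/(2p)) ≥ 3K + A
  have hroot : ∀ s : ℝ, (3 * K + A) ^ (2 * p) ≤ s → 3 * K + A ≤ s ^ (1 / (2 * p)) := by
    intro s hs
    have h1 : ((3 * K + A) ^ (2 * p)) ^ (1 / (2 * p)) ≤ s ^ (1 / (2 * p)) :=
      Real.rpow_le_rpow (by positivity) hs hinv.le
    rwa [← Real.rpow_mul hbase.le, mul_one_div_cancel hp2.ne', Real.rpow_one] at h1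
  have hvr : 3 * K + A ≤ v ^ (1 / (2 * p)) := hroot v (by linarith)
  have hsplit : ∀ s : ℝ, 0 < s → s ^ θ * s ^ (1 / (2 * p)) = s := by
    intro s hs
    rw [← Real.rpow_add hs]
    have : θ + 1 / (2 * p) = 1 := by rw [hθ]; ring
    rw [this, Real.rpow_one]
  have hzx : z ≤ x := by
    have h1 : K * v ^ θ * 3 ≤ v := by
      have h2 := hsplit v hv0
      have h3 : 0 < v ^ θ := Real.rpow_pos_of_pos hv0 θ
      calc K * v ^ θ * 3 = v ^ θ * (3 * K) := by ring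
        _ ≤ v ^ θ * v ^ (1 / (2 * p)) := mul_le_mul_of_nonneg_left (by linarith) h3.le
        _ = v := h2
    linarith
  have hv3 : v ≤ 3 * x := by linarith
  have hx0 : 0 < x := by linarith
  have hxr : 3 * K + A ≤ x ^ (1 / (2 * p)) := hroot x (by linarith)
  have hAx : A * x ^ (θ - 1) ≤ 1 := by
    have e : θ - 1 = -(1 / (2 * p)) := by rw [hθ]; ring
    rw [e, Real.rpow_neg hx0.le, ← div_eq_mul_inv, div_le_one (Real.rpow_pos_of_pos hx0 _)]
    linarith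
  have hc := concave_split hθ0 hθ1 hx hxy
  have hxy0 : 0 < x + y := by linarith
  have hb := bernoulli_add hθ0 hθ1 hxy0 hz
  have hmono : (x + y) ^ (θ - 1) ≤ x ^ (θ - 1) :=
    Real.rpow_le_rpow_of_nonpos hx0 (by linarith) (by linarith)
  have h2x : (2 * x) ^ θ = 2 ^ θ * x ^ θ := Real.mul_rpow (by norm_num) hx
  have h3x : z ≤ 3 * K * x ^ θ := by
    have h1 : v ^ θ ≤ (3 * x) ^ θ := Real.rpow_le_rpow hv0.le hv3 hθ0
    have h2 : (3 * x) ^ θ = 3 ^ θ * x ^ θ := Real.mul_rpow (by norm_num) hx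
    have h3 : (3:ℝ) ^ θ ≤ 3 := by
      calc (3:ℝ) ^ θ ≤ 3 ^ (1:ℝ) := Real.rpow_le_rpow_of_exponent_le (by norm_num) hθ1
        _ = 3 := Real.rpow_one 3
    have h4 : 0 ≤ x ^ θ := Real.rpow_nonneg hx θ
    calc z ≤ K * v ^ θ := hcut.le
      _ ≤ K * (3 * x ^ θ) := by
          refine mul_le_mul_of_nonneg_left ?_ hK.le
          rw [h2] at h1
          exact h1.trans (mul_le_mul_of_nonneg_right h3 h4)
      _ = 3 * K * x ^ θ := by ring
  have h5 : A * (x + y + z) ^ θ ≤ A * (x + y) ^ θ + z := by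
    have h6 : A * (z * (x + y) ^ (θ - 1)) ≤ z := by
      calc A * (z * (x + y) ^ (θ - 1)) ≤ A * (z * x ^ (θ - 1)) :=
            mul_le_mul_of_nonneg_left (mul_le_mul_of_nonneg_left hmono hz) hA0.le
        _ = z * (A * x ^ (θ - 1)) := by ring
        _ ≤ z * 1 := mul_le_mul_of_nonneg_left hAx hz
        _ = z := mul_one z
    have h7 := mul_le_mul_of_nonneg_left hb hA0.le
    linarith
  have h8 : A * (x ^ θ + (x + y) ^ θ) ≤ A * (y ^ θ + 2 ^ θ * x ^ θ) := by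
    rw [h2x] at hc
    exact mul_le_mul_of_nonneg_left hc hA0.le
  have h9 : A * (2 - 2 ^ θ) * x ^ θ = 6 * K * x ^ θ := by rw [hA]
  nlinarith [h5, h8, h9, h3x]

end Vale.Agent.P249
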