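import Vale.Agent.Lib.P249.Cube
import Vale.Agent.Lib.P249.Defs

/-!
Lower bound for the dimension of an `ℓ_p` space containing a fine net of a Euclidean cube.
-/

namespace Vale.Agent.P249

open MeasureTheory ProbabilityTheory Filter Topology
open scoped ENNReal NNReal RealInnerProductSpace

variable {k : ℕ}

lemma real_rpow_add_le {a b p : ℝ} (ha : 0 ≤ a) (hb : 0 ≤ b) (hp : 1 ≤ p) :
    (a + b) ^ p ≤ 2 ^ (p - 1) * (a ^ p + b ^ p) := by
  lift a to ℝ≥0 using ha
  lift b to ℝ≥0 using hb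
  exact_mod_cast NNReal.rpow_add_le_mul_rpow_add_rpow a b hp

/-- the dimension constant -/
noncomputable def cst (p D : ℝ) : ℝ :=
  2 ^ (p - 1) * (2 ^ (p - 1) * ((Real.pi / 2) ^ p * (D ^ p * gmom p)) + 2 ^ (p - 1) + 1)

lemma cst_pos {p D : ℝ} (hp : 0 < p) (hD : 0 ≤ D) : 0 < cst p D := by
  have := gmom_pos hp
  unfold cst
  positivity

theorem cube_lower {p D : ℝ} (hp : 2 ≤ p) (hD : 1 ≤ D) {k : ℕ} (hk : 0 < k) {m : ℕ}
    (hm : 2 * D * Real.sqrt k ≤ m) {d : ℕ} (f : Eu k → Fin d → ℝ)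
    (hf : ∀ x ∈ cubeNet k m, ∀ y ∈ cubeNet k m,
      ‖x - y‖ ^ p ≤ ∑ j, |f x j - f y j| ^ p ∧ ∑ j, |f x j - f y j| ^ p ≤ (D * ‖x - y‖) ^ p) :
    (k * v2 / 2) ^ (p / 2) ≤ cst p D * (d + 1) := by
  have hp0 : 0 < p := by linarith
  have hp1 : 1 ≤ p := by linarith
  have hk0 : (0:ℝ) < k := by exact_mod_cast hk
  have hs0 : 0 < Real.sqrt k := Real.sqrt_pos.mpr hk0
  have hm0 : (0:ℝ) < m := lt_of_lt_of_le (by positivity) hm
  have hm0' : 0 < m := by exact_mod_cast hm0
  have hD0 : 0 ≤ D := by linarith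
  set L : ℝ≥0 := ⟨D, hD0⟩ with hL
  have hlip : ∀ j, LipschitzOnWith L (fun x => f x j) (cubeNet k m : Set (Eu k)) := by
    intro j
    refine LipschitzOnWith.of_dist_le_mul fun x hx y hy => ?_
    rw [Real.dist_eq, dist_eq_norm]
    change |f x j - f y j| ≤ D * ‖x - y‖
    have h1 := (hf x hx y hy).2
    have h2 : |f x j - f y j| ^ p ≤ (D * ‖x - y‖) ^ p := le_trans
      (Finset.single_le_sum (f := fun j => |f x j - f y j| ^ p)
        (fun i _ => Real.rpow_nonneg (abs_nonneg _) _) (Finset.mem_univ j)) h1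
    exact (Real.rpow_le_rpow_iff (abs_nonneg _) (by positivity) hp0).mp h2
  choose G hG hGeq using fun j => (hlip j).extend_real
  choose r hr hrd using exists_round (k := k) hm0'
  have hδ : Real.sqrt k / m ≤ 1 / (2 * D) := by
    rw [div_le_div_iff₀ hm0 (by positivity)]
    linarith
  have hδ2 : 2 * (D * (Real.sqrt k / m)) ≤ 1 := by
    have := mul_le_mul_of_nonneg_left hδ (by positivity : 0 ≤ 2 * D)
    have e : 2 * D * (1 / (2 * D)) = 1 := by field_simp
    linarith
  have hδ1 : 2 * (Real.sqrt k / m) ≤ 1 := by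
    have h1 : Real.sqrt k / m ≤ D * (Real.sqrt k / m) :=
      le_mul_of_one_le_left (by positivity) hD
    linarith
  -- the composed functions
  set F : Fin d → Eu k → ℝ := fun j x => G j (tau x) with hF
  have hFlip : ∀ j, LipschitzWith L (F j) := by
    intro j
    have := (hG j).comp (tau_lipschitz (k := k))
    rwa [mul_one] at this
  have hpt : ∀ z : Eu k × Eu k, ‖tau z.1 - tau z.2‖ ^ p ≤ 2 ^ (p - 1) *
      (2 ^ (p - 1) * ∑ j, |F j z.1 - F j z.2| ^ p + (2 ^ (p - 1) * d + 1)) := by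
    intro z
    have h1 : ‖tau z.1 - tau z.2‖ ≤ ‖r z.1 - r z.2‖ + 1 := by
      have e : tau z.1 - tau z.2 = (r z.1 - r z.2) + ((tau z.1 - r z.1) - (tau z.2 - r z.2)) := by
        abel
      rw [e]
      refine (norm_add_le _ _).trans ?_
      have h2 := norm_sub_le (tau z.1 - r z.1) (tau z.2 - r z.2)
      have h3 := hrd z.1
      have h4 := hrd z.2
      linarith
    have h2 : ‖tau z.1 - tau z.2‖ ^ p ≤ 2 ^ (p - 1) * (‖r z.1 - r z.2‖ ^ p + 1) := by
      refine (Real.rpow_le_rpow (norm_nonneg _) h1 hp0.le).trans ?_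
      refine (real_rpow_add_le (norm_nonneg _) zero_le_one hp1).trans ?_
      rw [Real.one_rpow]
    have h3 : ∀ j, |f (r z.1) j - f (r z.2) j| ^ p
        ≤ 2 ^ (p - 1) * (|F j z.1 - F j z.2| ^ p + 1) := by
      intro j
      have e1 : f (r z.1) j = G j (r z.1) := hGeq j (hr z.1)
      have e2 : f (r z.2) j = G j (r z.2) := hGeq j (hr z.2)
      have h4 : |f (r z.1) j - f (r z.2) j| ≤ |F j z.1 - F j z.2| + 1 := by
        rw [e1, e2]
        have h5 := (hG j).dist_le_mul (r z.1) (tau z.1)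
        have h6 := (hG j).dist_le_mul (r z.2) (tau z.2)
        rw [Real.dist_eq, dist_eq_norm] at h5 h6
        have h7 : ‖r z.1 - tau z.1‖ ≤ Real.sqrt k / m := by
          rw [norm_sub_rev]; exact hrd z.1
        have h8 : ‖r z.2 - tau z.2‖ ≤ Real.sqrt k / m := by
          rw [norm_sub_rev]; exact hrd z.2
        have h9 : |G j (r z.1) - G j (tau z.1)| ≤ D * (Real.sqrt k / m) :=
          h5.trans (mul_le_mul_of_nonneg_left h7 hD0)
        have h10 : |G j (r z.2) - G j (tau z.2)| ≤ D * (Real.sqrt k / m) :=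
          h6.trans (mul_le_mul_of_nonneg_left h8 hD0)
        have h11 : G j (r z.1) - G j (r z.2) = (G j (tau z.1) - G j (tau z.2))
            + ((G j (r z.1) - G j (tau z.1)) - (G j (r z.2) - G j (tau z.2))) := by ring
        rw [h11]
        refine (abs_add_le _ _).trans ?_
        have h12 := abs_sub (G j (r z.1) - G j (tau z.1)) (G j (r z.2) - G j (tau z.2))
        linarith
      refine (Real.rpow_le_rpow (abs_nonneg _) h4 hp0.le).trans ?_
      refine (real_rpow_add_le (abs_nonneg _) zero_le_one hp1).trans ?_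
      rw [Real.one_rpow]
    have h4 : ‖r z.1 - r z.2‖ ^ p
        ≤ 2 ^ (p - 1) * ∑ j, |F j z.1 - F j z.2| ^ p + 2 ^ (p - 1) * d := by
      refine ((hf _ (hr z.1) _ (hr z.2)).1).trans ?_
      refine (Finset.sum_le_sum fun j _ => h3 j).trans (le_of_eq ?_)
      rw [← Finset.mul_sum, Finset.sum_add_distrib]
      simp
      ring
    refine h2.trans (mul_le_mul_of_nonneg_left ?_ (by positivity))
    linarith
  have hintF : ∀ j, Integrable (fun z : Eu k × Eu k => |F j z.1 - F j z.2| ^ p) (gg k) := by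
    intro j
    refine (integrable_const ((D * (2 * Real.sqrt k)) ^ p)).mono' ?_
      (Eventually.of_forall fun z => ?_)
    · have hc := (hFlip j).continuous
      exact (((hc.comp continuous_fst).sub (hc.comp continuous_snd)).abs.rpow_const
        (fun _ => Or.inr hp0.le)).aestronglyMeasurable
    · rw [Real.norm_eq_abs, abs_of_nonneg (Real.rpow_nonneg (abs_nonneg _) _)]
      refine Real.rpow_le_rpow (abs_nonneg _) ?_ hp0.le
      have h5 := (hG j).dist_le_mul (tau z.1) (tau z.2)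
      rw [Real.dist_eq, dist_eq_norm] at h5
      exact h5.trans (mul_le_mul_of_nonneg_left (norm_tau_sub_le _ _) hD0)
  have hcont : Continuous fun z : Eu k × Eu k => ‖tau z.1 - tau z.2‖ := by
    have h1 := (tau_lipschitz (k := k)).continuous
    exact ((h1.comp continuous_fst).sub (h1.comp continuous_snd)).norm
  have hintp : Integrable (fun z : Eu k × Eu k => ‖tau z.1 - tau z.2‖ ^ p) (gg k) := by
    refine (integrable_const ((2 * Real.sqrt k) ^ p)).mono' ?_ (Eventually.of_forall fun z => ?_)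
    · exact (hcont.rpow_const fun _ => Or.inr (by linarith)).aestronglyMeasurable
    · rw [Real.norm_eq_abs, abs_of_nonneg (by positivity)]
      exact Real.rpow_le_rpow (norm_nonneg _) (norm_tau_sub_le _ _) (by linarith)
  have hsum : Integrable (fun z : Eu k × Eu k => ∑ j, |F j z.1 - F j z.2| ^ p) (gg k) :=
    integrable_finsetSum _ fun j _ => hintF j
  have hint3 : Integrable (fun z : Eu k × Eu k => 2 ^ (p - 1) *
      (2 ^ (p - 1) * ∑ j, |F j z.1 - F j z.2| ^ p + (2 ^ (p - 1) * d + 1))) (gg k) :=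
    ((hsum.const_mul _).add (integrable_const _)).const_mul _
  have hmono := integral_mono hintp hint3 hpt
  have hmp : ∀ j, ∫ z, |F j z.1 - F j z.2| ^ p ∂(gg k)
      ≤ (Real.pi / 2) ^ p * (D ^ p * gmom p) := fun j => maurey_pisier (hFlip j) hp1
  have hval : ∫ z : Eu k × Eu k, 2 ^ (p - 1) *
      (2 ^ (p - 1) * ∑ j, |F j z.1 - F j z.2| ^ p + (2 ^ (p - 1) * d + 1)) ∂(gg k)
      = 2 ^ (p - 1) * (2 ^ (p - 1) * ∑ j, ∫ z, |F j z.1 - F j z.2| ^ p ∂(gg k)
        + (2 ^ (p - 1) * d + 1)) := by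
    rw [integral_const_mul]
    congr 1
    rw [integral_add (hsum.const_mul _) (integrable_const _), integral_const_mul,
      integral_finsetSum _ fun j _ => hintF j]
    simp
  rw [hval] at hmono
  have hlow := integral_norm_rpow_ge hk hp
  have hsumle : ∑ j, ∫ z, |F j z.1 - F j z.2| ^ p ∂(gg k)
      ≤ d * ((Real.pi / 2) ^ p * (D ^ p * gmom p)) := by
    refine (Finset.sum_le_sum fun j _ => hmp j).trans (le_of_eq ?_)
    simp
  have hA : 0 ≤ (Real.pi / 2) ^ p * (D ^ p * gmom p) := by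
    have := gmom_pos hp0
    positivity
  set A := (Real.pi / 2) ^ p * (D ^ p * gmom p) with hAdef
  set t : ℝ := (2:ℝ) ^ (p - 1) with ht
  have ht0 : 0 ≤ t := by positivity
  have hd0 : (0:ℝ) ≤ d := Nat.cast_nonneg d
  calc (k * v2 / 2) ^ (p / 2) ≤ ∫ z, ‖tau z.1 - tau z.2‖ ^ p ∂(gg k) := hlow
    _ ≤ t * (t * ∑ j, ∫ z, |F j z.1 - F j z.2| ^ p ∂(gg k) + (t * d + 1)) := hmono
    _ ≤ t * (t * (d * A) + (t * d + 1)) := by
        refine mul_le_mul_of_nonneg_left ?_ ht0
        have := mul_le_mul_of_nonneg_left hsumle ht0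
        linarith
    _ ≤ cst p D * (d + 1) := by
        have e : cst p D = t * (t * A + t + 1) := rfl
        rw [e, mul_assoc]
        refine mul_le_mul_of_nonneg_left ?_ ht0
        have h1 : 0 ≤ t * A := mul_nonneg ht0 hA
        nlinarith

end Vale.Agent.P249
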