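import Vale.Agent.Lib.P249.LowerB

/-!
The lower bound `d_p(n, D) ≥ c (log n / log log n)^(p/2)`.
-/

namespace Vale.Agent.P249

open MeasureTheory ProbabilityTheory Filter Topology
open scoped ENNReal NNReal RealInnerProductSpace

universe u

/-- a copy of Gauss space in the universe `u` -/
noncomputable def liftG (k : ℕ) : Measure (ULift.{u} (Eu k)) := (stdGaussian (Eu k)).map ULift.up

lemma liftG_preserving (k : ℕ) :
    MeasurePreserving (ULift.down : ULift.{u} (Eu k) → Eu k) (liftG.{u} k)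
      (stdGaussian (Eu k)) := by
  refine ⟨measurable_down, ?_⟩
  unfold liftG
  rw [Measure.map_map measurable_down measurable_up]
  exact Measure.map_id

/-- the linear functional `⟨x, ·⟩` on (the copy of) Gauss space -/
noncomputable def lin {k : ℕ} (x : Eu k) (ω : ULift.{u} (Eu k)) : ℝ := innerSL ℝ x ω.down

lemma memLp_lin {k : ℕ} {p : ℝ} (x : Eu k) :
    MemLp (lin.{u} x) (ENNReal.ofReal p) (liftG.{u} k) := by
  have h1 : MemLp (fun y => innerSL ℝ x y) (ENNReal.ofReal p) (stdGaussian (Eu k)) :=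
    (innerSL ℝ x).comp_memLp' (IsGaussian.memLp_id (stdGaussian (Eu k)) (ENNReal.ofReal p)
      ENNReal.ofReal_ne_top)
  exact h1.comp_measurePreserving (liftG_preserving k)

/-- the embedding of Euclidean space in `L_p` -/
noncomputable def emb (p : ℝ) {k : ℕ} (x : Eu k) : Lp ℝ (ENNReal.ofReal p) (liftG.{u} k) :=
  (memLp_lin x).toLp (lin x)

lemma norm_emb_sub {p : ℝ} (hp : 0 < p) {k : ℕ} (x y : Eu k) :
    ‖emb.{u} p x - emb p y‖ = gmom p ^ (1 / p) * ‖x - y‖ := by
  unfold emb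
  rw [← MemLp.toLp_sub, Lp.norm_toLp]
  have hm : MemLp (lin.{u} x - lin y) (ENNReal.ofReal p) (liftG.{u} k) :=
    (memLp_lin x).sub (memLp_lin y)
  have hne : ENNReal.ofReal p ≠ 0 := by simpa using hp
  rw [hm.eLpNorm_eq_integral_rpow_norm hne ENNReal.ofReal_ne_top,
    ENNReal.toReal_ofReal (by positivity), ENNReal.toReal_ofReal hp.le]
  have h1 : ∫ ω, ‖(lin.{u} x - lin y) ω‖ ^ p ∂(liftG.{u} k)
      = ∫ z, |innerSL ℝ (x - y) z| ^ p ∂(stdGaussian (Eu k)) := by
    have h2 := (liftG_preserving.{u} k).integral_comp'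
      (f := MeasurableEquiv.ulift) (fun z => |innerSL ℝ (x - y) z| ^ p)
    rw [← h2]
    refine integral_congr_ae (Eventually.of_forall fun ω => ?_)
    simp only [lin, Pi.sub_apply, map_sub, _root_.sub_apply, Real.norm_eq_abs]
    rfl
  rw [h1, integral_dual_rpow, innerSL_apply_norm, Real.mul_rpow (by positivity) (gmom_pos hp).le,
    ← Real.rpow_mul (norm_nonneg _), mul_inv_cancel₀ hp.ne', Real.rpow_one, mul_comm, one_div]

lemma emb_injective {p : ℝ} (hp : 0 < p) (k : ℕ) :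
    Function.Injective (emb.{u} p : Eu k → _) := by
  intro x y h
  have h1 := norm_emb_sub.{u} hp x y
  rw [h, sub_self, Lp.norm_zero] at h1
  have h2 : gmom p ^ (1 / p) ≠ 0 := (Real.rpow_pos_of_pos (gmom_pos hp) _).ne'
  have h3 : ‖x - y‖ = 0 := by
    rcases mul_eq_zero.mp h1.symm with h | h
    · exact absurd h h2
    · exact h
  exact sub_eq_zero.mp (norm_eq_zero.mp h3)

lemma lpNorm_rpow {p : ℝ} (hp : 0 < p) {d : ℕ} (y : Fin d → ℝ) :
    lpNorm p y ^ p = ∑ k, |y k| ^ p := by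
  unfold lpNorm
  rw [← Real.rpow_mul (Finset.sum_nonneg fun _ _ => Real.rpow_nonneg (abs_nonneg _) _),
    one_div, inv_mul_cancel₀ hp.ne', Real.rpow_one]

lemma lpNorm_nonneg' {p : ℝ} {d : ℕ} (y : Fin d → ℝ) : 0 ≤ lpNorm p y :=
  Real.rpow_nonneg (Finset.sum_nonneg fun _ _ => Real.rpow_nonneg (abs_nonneg _) _) _

/-- the main inequality, for one net -/
theorem admits_lower {p D : ℝ} (hp : 2 ≤ p) (hD : 1 ≤ D) {k : ℕ} (hk : 0 < k) {m : ℕ}
    (hm : 2 * D * Real.sqrt k ≤ m) {n d : ℕ} (hn : (2 * m + 1) ^ k ≤ n)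
    (h : Admits.{u} p D n d) :
    (k * v2 / 2) ^ (p / 2) ≤ cst p D * (d + 1) := by
  classical
  have hp0 : 0 < p := by linarith
  have hinj := emb_injective.{u} hp0 k
  have : Nonempty (Fin k) := ⟨⟨0, hk⟩⟩
  have : Nontrivial (Eu k) := inferInstance
  have hinf : Infinite (Eu k) := inferInstance
  have hinf2 : Infinite (Lp ℝ (ENNReal.ofReal p) (liftG.{u} k)) :=
    Infinite.of_injective _ hinj
  set X0 : Finset (Lp ℝ (ENNReal.ofReal p) (liftG.{u} k)) := (cubeNet k m).image (emb p) with hX0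
  have hX0c : X0.card ≤ n := by
    refine le_trans ?_ hn
    exact Finset.card_image_le.trans (card_cubeNet k m)
  obtain ⟨X, hXs, hXc⟩ := Infinite.exists_superset_card_eq X0 n hX0c
  obtain ⟨f, s, hs, hf⟩ := h (ULift.{u} (Eu k)) (liftG.{u} k) X hXc
  set κ : ℝ := gmom p ^ (1 / p) with hκ
  have hκ0 : 0 < κ := Real.rpow_pos_of_pos (gmom_pos hp0) _
  have hsκ : 0 < s * κ := mul_pos hs hκ0
  refine cube_lower hp hD hk hm (fun x j => f (emb p x) j / (s * κ)) fun x hx y hy => ?_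
  have hx' : emb.{u} p x ∈ X := hXs (Finset.mem_image_of_mem _ hx)
  have hy' : emb.{u} p y ∈ X := hXs (Finset.mem_image_of_mem _ hy)
  obtain ⟨h1, h2⟩ := hf _ hx' _ hy'
  rw [norm_emb_sub hp0] at h1 h2
  have h3 : ∑ j, |f (emb p x) j / (s * κ) - f (emb p y) j / (s * κ)| ^ p
      = lpNorm p (f (emb p x) - f (emb p y)) ^ p / (s * κ) ^ p := by
    rw [lpNorm_rpow hp0, Finset.sum_div]
    refine Finset.sum_congr rfl fun j _ => ?_
    rw [← sub_div, abs_div, abs_of_pos hsκ, Real.div_rpow (abs_nonneg _) hsκ.le]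
    rfl
  rw [h3]
  have hsp : 0 < (s * κ) ^ p := Real.rpow_pos_of_pos hsκ p
  constructor
  · rw [le_div_iff₀ hsp, ← Real.mul_rpow (norm_nonneg _) hsκ.le]
    refine Real.rpow_le_rpow (by positivity) ?_ hp0.le
    calc ‖x - y‖ * (s * κ) = s * (κ * ‖x - y‖) := by ring
      _ ≤ _ := h1
  · rw [div_le_iff₀ hsp, ← Real.mul_rpow (by positivity) hsκ.le]
    refine Real.rpow_le_rpow (lpNorm_nonneg' _) ?_ hp0.le
    calc lpNorm p (f (emb p x) - f (emb p y)) ≤ D * s * (κ * ‖x - y‖) := h2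
      _ = _ := by ring

/-- **Lower bound**: for `p > 2` dimension `(log n / log log n)^(p/2)` is necessary. -/
theorem lower_bound {p D : ℝ} (hp : 2 ≤ p) (hD : 1 ≤ D) :
    ∃ c : ℝ, 0 < c ∧ ∃ n0 : ℕ, ∀ n : ℕ, n0 ≤ n → ∀ d : ℕ, Admits.{u} p D n d →
      c * (Real.log n / Real.log (Real.log n)) ^ (p / 2) ≤ d := by
  have hp0 : 0 < p := by linarith
  have hv := v2_pos
  have hC := cst_pos (p := p) (D := D) hp0 (by linarith)
  set M : ℕ := ⌈2 * D⌉₊ with hM
  have hM1 : 2 * D ≤ M := Nat.le_ceil _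
  set c' : ℝ := (v2 / 8) ^ (p / 2) / cst p D with hc'
  have hc0 : 0 < c' := by positivity
  set B : ℝ := (2 / c') ^ (2 / p) with hB
  have hB0 : 0 < B := by positivity
  have hBp : B ^ (p / 2) = 2 / c' := by
    rw [hB, ← Real.rpow_mul (by positivity)]
    have : 2 / p * (p / 2) = 1 := by field_simp
    rw [this, Real.rpow_one]
  have hev : ∀ᶠ L : ℝ in atTop, 1 ≤ Real.log L ∧ Real.log L ≤ L / 4 ∧ (M : ℝ) + 1 ≤ L ∧
      Real.log L ≤ L / B := by
    have h1 : ∀ᶠ L : ℝ in atTop, 1 ≤ Real.log L := Real.tendsto_log_atTop.eventually_ge_atTop 1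
    have h2 := (Real.isLittleO_log_id_atTop.def (c := 1 / 4) (by norm_num))
    have h3 := (Real.isLittleO_log_id_atTop.def (c := 1 / B) (by positivity))
    filter_upwards [h1, h2, h3, eventually_ge_atTop ((M : ℝ) + 1), eventually_ge_atTop (1:ℝ)]
      with L e1 e2 e3 e4 e5
    simp only [id, Real.norm_eq_abs] at e2 e3
    rw [abs_of_nonneg (by linarith), abs_of_nonneg (by linarith)] at e2 e3
    refine ⟨e1, by linarith, e4, ?_⟩
    rw [div_eq_inv_mul, ← one_div]
    exact e3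
  have hlog : Tendsto (fun n : ℕ => Real.log (n : ℝ)) atTop atTop :=
    Real.tendsto_log_atTop.comp tendsto_natCast_atTop_atTop
  obtain ⟨n0, hn0⟩ := eventually_atTop.mp (hlog.eventually hev)
  refine ⟨c' / 2, by positivity, max n0 1, fun n hn d hd => ?_⟩
  obtain ⟨h1, h2, h3, h4⟩ := hn0 n (le_trans (le_max_left _ _) hn)
  have hn1 : 1 ≤ n := le_trans (le_max_right _ _) hn
  set L : ℝ := Real.log n with hL
  set l : ℝ := Real.log L with hl
  have hl0 : 0 < l := by linarith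
  have hL4 : 4 ≤ L := by linarith
  have hL0 : 0 < L := by linarith
  set k : ℕ := ⌊L / (2 * l)⌋₊ with hk
  have hq : 2 ≤ L / (2 * l) := by
    rw [le_div_iff₀ (by positivity)]
    linarith
  have hk1 : (k : ℝ) ≤ L / (2 * l) := Nat.floor_le (by positivity)
  have hk2 : L / (2 * l) < k + 1 := Nat.lt_floor_add_one _
  have hkpos : 0 < k := Nat.floor_pos.mpr (by linarith)
  have hk1' : (1:ℝ) ≤ k := by exact_mod_cast hkpos
  have hk3 : L / (4 * l) ≤ k := by
    have e : L / (2 * l) = 2 * (L / (4 * l)) := by field_simp; norm_num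
    rw [e] at hk2 hq
    linarith
  have hm : 2 * D * Real.sqrt k ≤ ((M * k : ℕ) : ℝ) := by
    push_cast
    have hsq : Real.sqrt k ≤ k := by
      rw [Real.sqrt_le_left (by linarith)]
      nlinarith
    calc 2 * D * Real.sqrt k ≤ M * Real.sqrt k :=
          mul_le_mul_of_nonneg_right hM1 (Real.sqrt_nonneg _)
      _ ≤ M * k := mul_le_mul_of_nonneg_left hsq (Nat.cast_nonneg M)
  have hbase : ((2 * (M * k) + 1 : ℕ) : ℝ) ≤ L ^ 2 := by
    push_cast
    have e1 : (k : ℝ) ≤ L / 2 := by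
      refine hk1.trans ?_
      rw [div_le_div_iff₀ (by positivity) (by norm_num)]
      nlinarith
    have e2 : (M : ℝ) * k ≤ M * (L / 2) := mul_le_mul_of_nonneg_left e1 (Nat.cast_nonneg M)
    nlinarith
  have hcard : (2 * (M * k) + 1) ^ k ≤ n := by
    have hpos : (0:ℝ) < ((2 * (M * k) + 1 : ℕ) : ℝ) := by positivity
    have e1 : (((2 * (M * k) + 1) ^ k : ℕ) : ℝ) ≤ n := by
      rw [Nat.cast_pow, ← Real.log_le_log_iff (by positivity) (by exact_mod_cast hn1),
        Real.log_pow]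
      have e2 : Real.log ((2 * (M * k) + 1 : ℕ) : ℝ) ≤ 2 * l := by
        refine (Real.log_le_log hpos hbase).trans (le_of_eq ?_)
        rw [Real.log_pow]
        push_cast
        rw [hl]
      calc (k : ℝ) * Real.log ((2 * (M * k) + 1 : ℕ) : ℝ) ≤ L / (2 * l) * (2 * l) :=
            mul_le_mul hk1 e2 (Real.log_nonneg (by
              rw [Nat.one_le_cast]; omega)) (by positivity)
        _ = L := by field_simp
    exact_mod_cast e1
  have hmain := admits_lower hp hD hkpos hm hcard hd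
  have hpow : (v2 / 8) ^ (p / 2) * (L / l) ^ (p / 2) ≤ (k * v2 / 2) ^ (p / 2) := by
    rw [← Real.mul_rpow (by positivity) (by positivity)]
    refine Real.rpow_le_rpow (by positivity) ?_ (by positivity)
    calc v2 / 8 * (L / l) = L / (4 * l) * v2 / 2 := by field_simp; norm_num
      _ ≤ k * v2 / 2 := by
        have := mul_le_mul_of_nonneg_right hk3 hv.le
        linarith
  have hY : 2 / c' ≤ (L / l) ^ (p / 2) := by
    rw [← hBp]
    refine Real.rpow_le_rpow hB0.le ?_ (by positivity)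
    rw [le_div_iff₀ hl0]
    rw [le_div_iff₀ hB0] at h4
    linarith
  have hfin : c' * (L / l) ^ (p / 2) ≤ d + 1 := by
    rw [hc', div_mul_eq_mul_div, div_le_iff₀ hC]
    linarith
  have hfin2 : 2 ≤ c' * (L / l) ^ (p / 2) := by
    rw [div_le_iff₀ hc0] at hY
    linarith
  linarith

end Vale.Agent.P249
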