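import Vale.Agent.Lib.P249.Gauss

/-!
The Maurey-Pisier concentration inequality for Lipschitz functions on Gauss space.
-/

namespace Vale.Agent.P249

open MeasureTheory ProbabilityTheory Filter Topology
open scoped ENNReal NNReal RealInnerProductSpace

variable {k : ℕ}

/-- product of two standard Gaussians -/
noncomputable abbrev gg (k : ℕ) : Measure (Eu k × Eu k) :=
  (stdGaussian (Eu k)).prod (stdGaussian (Eu k))

lemma gg_rotation (θ : ℝ) :
    (gg k).map (ContinuousLinearMap.rotation θ) = gg k :=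
  IsGaussian.map_rotation_eq_self integral_id_stdGaussian θ

lemma integrable_norm_pow_gg {p : ℝ} (hp : 0 < p) :
    Integrable (fun z : Eu k × Eu k => (‖z.1‖ + ‖z.2‖) ^ p) (gg k) := by
  have h1 : MemLp (fun z : Eu k × Eu k => ‖z.1‖) (ENNReal.ofReal p) (gg k) := by
    have := (IsGaussian.memLp_id (stdGaussian (Eu k)) (ENNReal.ofReal p)
      ENNReal.ofReal_ne_top).norm
    exact this.comp_fst _
  have h2 : MemLp (fun z : Eu k × Eu k => ‖z.2‖) (ENNReal.ofReal p) (gg k) := by
    have := (IsGaussian.memLp_id (stdGaussian (Eu k)) (ENNReal.ofReal p)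
      ENNReal.ofReal_ne_top).norm
    exact this.comp_snd _
  have h3 := (h1.add h2).integrable_norm_rpow (by simpa using hp) ENNReal.ofReal_ne_top
  rw [ENNReal.toReal_ofReal hp.le] at h3
  refine h3.congr (Eventually.of_forall fun z => ?_)
  simp only [Pi.add_apply, Real.norm_eq_abs]
  rw [abs_of_nonneg (by positivity)]

/-- one small rotation step -/
noncomputable def stepF (F : Eu k → ℝ) (p ε : ℝ) (z : Eu k × Eu k) : ℝ :=
  |F (Real.cos ε • z.1 + Real.sin ε • z.2) - F z.1| ^ p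

lemma step_bound {F : Eu k → ℝ} {L : ℝ≥0} (hF : LipschitzWith L F) {ε : ℝ} (hε : 0 ≤ ε)
    (z : Eu k × Eu k) :
    |F (Real.cos ε • z.1 + Real.sin ε • z.2) - F z.1| ≤ L * ε * (‖z.1‖ + ‖z.2‖) := by
  have h1 := hF.dist_le_mul (Real.cos ε • z.1 + Real.sin ε • z.2) z.1
  rw [Real.dist_eq, dist_eq_norm] at h1
  have h2 : Real.cos ε • z.1 + Real.sin ε • z.2 - z.1
      = (Real.cos ε - 1) • z.1 + Real.sin ε • z.2 := by
    rw [sub_smul, one_smul]; abel
  rw [h2] at h1
  have h3 : ‖(Real.cos ε - 1) • z.1 + Real.sin ε • z.2‖ ≤ ε * (‖z.1‖ + ‖z.2‖) := by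
    refine (norm_add_le _ _).trans ?_
    rw [norm_smul, norm_smul, Real.norm_eq_abs, Real.norm_eq_abs]
    have h4 : |Real.sin ε| ≤ ε := by
      have := Real.abs_sin_le_abs (x := ε); rwa [abs_of_nonneg hε] at this
    have h5 : |Real.cos ε - 1| ≤ ε := by
      rcases le_total ε 2 with h | h
      · have h6 := Real.one_sub_sq_div_two_le_cos (x := ε)
        have h7 := Real.cos_le_one ε
        rw [abs_of_nonpos (by linarith)]
        nlinarith
      · have h6 := Real.neg_one_le_cos ε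
        have h7 := Real.cos_le_one ε
        rw [abs_of_nonpos (by linarith)]
        linarith
    nlinarith [norm_nonneg z.1, norm_nonneg z.2]
  calc |F (Real.cos ε • z.1 + Real.sin ε • z.2) - F z.1|
      ≤ L * ‖(Real.cos ε - 1) • z.1 + Real.sin ε • z.2‖ := h1
    _ ≤ L * (ε * (‖z.1‖ + ‖z.2‖)) := mul_le_mul_of_nonneg_left h3 L.2
    _ = _ := by ring

lemma stepF_continuous {F : Eu k → ℝ} {L : ℝ≥0} (hF : LipschitzWith L F) {p : ℝ} (hp : 0 < p)
    (ε : ℝ) : Continuous (stepF F p ε) := by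
  unfold stepF
  have hc := hF.continuous
  exact ((hc.comp (by fun_prop)).sub (hc.comp continuous_fst)).abs.rpow_const
    (fun _ => Or.inr hp.le)

lemma stepF_le {F : Eu k → ℝ} {L : ℝ≥0} (hF : LipschitzWith L F) {p : ℝ} (hp : 0 < p)
    {ε : ℝ} (hε : 0 ≤ ε) (z : Eu k × Eu k) :
    stepF F p ε z ≤ (L * ε) ^ p * (‖z.1‖ + ‖z.2‖) ^ p := by
  unfold stepF
  rw [← Real.mul_rpow (mul_nonneg (NNReal.coe_nonneg L) hε) (by positivity)]
  exact Real.rpow_le_rpow (abs_nonneg _) (step_bound hF hε z) hp.le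

lemma stepF_integrable {F : Eu k → ℝ} {L : ℝ≥0} (hF : LipschitzWith L F) {p : ℝ} (hp : 0 < p)
    {ε : ℝ} (hε : 0 ≤ ε) : Integrable (stepF F p ε) (gg k) := by
  refine ((integrable_norm_pow_gg hp).const_mul ((L * ε) ^ p)).mono'
    (stepF_continuous hF hp ε).aestronglyMeasurable (Eventually.of_forall fun z => ?_)
  have h0 : 0 ≤ stepF F p ε z := Real.rpow_nonneg (abs_nonneg _) _
  rw [Real.norm_eq_abs, abs_of_nonneg h0]
  exact stepF_le hF hp hε z

/-- telescoping over `M` rotations -/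
lemma telescope {F : Eu k → ℝ} {L : ℝ≥0} (hF : LipschitzWith L F) {p : ℝ} (hp : 1 ≤ p)
    (M : ℕ) (hM : 0 < M) :
    ∫ z, |F z.1 - F z.2| ^ p ∂(gg k)
      ≤ (M : ℝ) ^ p * ∫ z, stepF F p (Real.pi / 2 / M) z ∂(gg k) := by
  have hp0 : 0 < p := by linarith
  have hM0 : (0:ℝ) < M := by exact_mod_cast hM
  set ε : ℝ := Real.pi / 2 / M with hε
  have hε0 : 0 ≤ ε := by positivity
  set X : ℕ → Eu k × Eu k → Eu k × Eu k := fun j => ContinuousLinearMap.rotation (j * ε) with hX
  have hX0 : ∀ z, (X 0 z).1 = z.1 := by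
    intro z; simp [hX, ContinuousLinearMap.rotation_apply]
  have hXM : ∀ z, (X M z).1 = z.2 := by
    intro z
    have : (M : ℝ) * ε = Real.pi / 2 := by rw [hε]; field_simp
    simp [hX, ContinuousLinearMap.rotation_apply, this]
  have hXs : ∀ j z, (X (j + 1) z).1 = Real.cos ε • (X j z).1 + Real.sin ε • (X j z).2 := by
    intro j z
    simp only [hX, ContinuousLinearMap.rotation_apply]
    have e : ((j + 1 : ℕ) : ℝ) * ε = j * ε + ε := by push_cast; ring
    rw [e, Real.cos_add, Real.sin_add]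
    module
  have hstep : ∀ j z, |F (X (j + 1) z).1 - F (X j z).1| ^ p = stepF F p ε (X j z) := by
    intro j z; unfold stepF; rw [hXs]
  have hpoint : ∀ z, |F z.1 - F z.2| ^ p
      ≤ (M : ℝ) ^ (p - 1) * ∑ j ∈ Finset.range M, stepF F p ε (X j z) := by
    intro z
    have h1 : F z.2 - F z.1 = ∑ j ∈ Finset.range M, (F (X (j + 1) z).1 - F (X j z).1) := by
      rw [Finset.sum_range_sub (fun j => F (X j z).1), hXM, hX0]
    have h2 : |F z.1 - F z.2| ≤ ∑ j ∈ Finset.range M, |F (X (j + 1) z).1 - F (X j z).1| := by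
      rw [abs_sub_comm, h1]; exact Finset.abs_sum_le_sum_abs _ _
    have h3 := Real.rpow_sum_le_const_mul_sum_rpow (Finset.range M)
      (fun j => F (X (j + 1) z).1 - F (X j z).1) hp
    rw [Finset.card_range] at h3
    calc |F z.1 - F z.2| ^ p
        ≤ (∑ j ∈ Finset.range M, |F (X (j + 1) z).1 - F (X j z).1|) ^ p :=
          Real.rpow_le_rpow (abs_nonneg _) h2 hp0.le
      _ ≤ (M : ℝ) ^ (p - 1) * ∑ j ∈ Finset.range M, |F (X (j + 1) z).1 - F (X j z).1| ^ p := h3
      _ = _ := by simp only [hstep]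
  have hcontX : ∀ j, Continuous (X j) := fun j => ContinuousLinearMap.continuous _
  have hintj : ∀ j, ∫ z, stepF F p ε (X j z) ∂(gg k) = ∫ z, stepF F p ε z ∂(gg k) := by
    intro j
    have h1 := gg_rotation (k := k) (j * ε)
    have h2 : ∫ z, stepF F p ε z ∂((gg k).map (X j)) = ∫ z, stepF F p ε (X j z) ∂(gg k) :=
      integral_map (hcontX j).aemeasurable
        (stepF_continuous hF hp0 ε).aestronglyMeasurable
    rw [← h2]
    have h3 : (gg k).map (X j) = gg k := h1
    rw [h3]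
  have hintX : ∀ j, Integrable (fun z => stepF F p ε (X j z)) (gg k) := by
    intro j
    have h1 : (gg k).map (X j) = gg k := gg_rotation (k := k) (j * ε)
    have h2 : Integrable (stepF F p ε) ((gg k).map (X j)) := by
      rw [h1]; exact stepF_integrable hF hp0 hε0
    exact h2.comp_measurable (hcontX j).measurable
  have hsumint : Integrable (fun z => (M : ℝ) ^ (p - 1) *
      ∑ j ∈ Finset.range M, stepF F p ε (X j z)) (gg k) :=
    (integrable_finsetSum _ fun j _ => hintX j).const_mul _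
  have hlhs : Integrable (fun z : Eu k × Eu k => |F z.1 - F z.2| ^ p) (gg k) := by
    refine hsumint.mono' ?_ (Eventually.of_forall fun z => ?_)
    · have hc := hF.continuous
      exact (((hc.comp continuous_fst).sub (hc.comp continuous_snd)).abs.rpow_const
        (fun _ => Or.inr hp0.le)).aestronglyMeasurable
    · rw [Real.norm_eq_abs, abs_of_nonneg (Real.rpow_nonneg (abs_nonneg _) _)]
      exact hpoint z
  calc ∫ z, |F z.1 - F z.2| ^ p ∂(gg k)
      ≤ ∫ z, (M : ℝ) ^ (p - 1) * ∑ j ∈ Finset.range M, stepF F p ε (X j z) ∂(gg k) :=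
        integral_mono hlhs hsumint hpoint
    _ = (M : ℝ) ^ (p - 1) * ∑ _j ∈ Finset.range M, ∫ z, stepF F p ε z ∂(gg k) := by
        rw [integral_const_mul, integral_finsetSum _ fun j _ => hintX j]
        simp only [hintj]
    _ = (M : ℝ) ^ p * ∫ z, stepF F p ε z ∂(gg k) := by
        rw [Finset.sum_const, Finset.card_range, nsmul_eq_mul, ← mul_assoc,
          Real.rpow_sub_one hM0.ne', div_mul_cancel₀ _ hM0.ne']

/-- **Maurey-Pisier inequality** -/
theorem maurey_pisier {F : Eu k → ℝ} {L : ℝ≥0} (hF : LipschitzWith L F) {p : ℝ} (hp : 1 ≤ p) :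
    ∫ z, |F z.1 - F z.2| ^ p ∂(gg k) ≤ (Real.pi / 2) ^ p * (L ^ p * gmom p) := by
  have hp0 : 0 < p := by linarith
  -- the rescaled steps
  set h : ℕ → Eu k × Eu k → ℝ := fun M z =>
    ((M + 1 : ℕ) : ℝ) ^ p * stepF F p (Real.pi / 2 / (M + 1 : ℕ)) z with hh
  set lim : Eu k × Eu k → ℝ := fun z => (Real.pi / 2) ^ p * |fderiv ℝ F z.1 z.2| ^ p with hlim
  have hdom : ∀ M z, ‖h M z‖ ≤ (Real.pi / 2) ^ p * (L ^ p * (‖z.1‖ + ‖z.2‖) ^ p) := by
    intro M z
    have hM0 : (0:ℝ) < ((M + 1 : ℕ) : ℝ) := by positivity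
    have h0 : 0 ≤ h M z := mul_nonneg (by positivity) (Real.rpow_nonneg (abs_nonneg _) _)
    rw [Real.norm_eq_abs, abs_of_nonneg h0]
    have h1 := stepF_le hF hp0 (ε := Real.pi / 2 / (M + 1 : ℕ)) (by positivity) z
    calc h M z ≤ ((M + 1 : ℕ) : ℝ) ^ p *
          ((L * (Real.pi / 2 / (M + 1 : ℕ))) ^ p * (‖z.1‖ + ‖z.2‖) ^ p) :=
          mul_le_mul_of_nonneg_left h1 (by positivity)
      _ = _ := by
          have e1 : ((M + 1 : ℕ) : ℝ) * (L * (Real.pi / 2 / (M + 1 : ℕ))) = Real.pi / 2 * L := by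
            field_simp
          rw [← mul_assoc, ← Real.mul_rpow hM0.le
            (mul_nonneg (NNReal.coe_nonneg L) (by positivity)), e1,
            Real.mul_rpow (by positivity) (NNReal.coe_nonneg L), mul_assoc]
  have hdiff : ∀ᵐ x ∂(stdGaussian (Eu k)), DifferentiableAt ℝ F x :=
    (stdGaussian_ac k).ae_le hF.ae_differentiableAt
  have hdiff2 : ∀ᵐ z ∂(gg k), DifferentiableAt ℝ F z.1 :=
    Measure.quasiMeasurePreserving_fst.ae hdiff
  have htend : ∀ᵐ z ∂(gg k), Tendsto (fun M => h M z) atTop (𝓝 (lim z)) := by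
    filter_upwards [hdiff2] with z hz
    -- curve
    have hc : HasDerivAt (fun t : ℝ => Real.cos t • z.1 + Real.sin t • z.2) z.2 0 := by
      have h1 : HasDerivAt (fun t : ℝ => Real.cos t • z.1 + Real.sin t • z.2)
          ((-Real.sin 0) • z.1 + Real.cos 0 • z.2) 0 :=
        ((Real.hasDerivAt_cos 0).smul_const z.1).fun_add
          ((Real.hasDerivAt_sin 0).smul_const z.2)
      refine h1.congr_deriv ?_
      simp
    have hc0 : (fun t : ℝ => Real.cos t • z.1 + Real.sin t • z.2) 0 = z.1 := by simp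
    have hF1 : HasFDerivAt F (fderiv ℝ F z.1)
        ((fun t : ℝ => Real.cos t • z.1 + Real.sin t • z.2) 0) := by
      rw [hc0]; exact hz.hasFDerivAt
    have hcomp := hF1.comp_hasDerivAt 0 hc
    rw [hasDerivAt_iff_tendsto_slope_zero] at hcomp
    -- sequence ε_M → 0
    have hε : Tendsto (fun M : ℕ => Real.pi / 2 / ((M + 1 : ℕ) : ℝ)) atTop (𝓝[≠] 0) := by
      rw [tendsto_nhdsWithin_iff]
      constructor
      · have h1 : Tendsto (fun M : ℕ => Real.pi / 2 / ((M : ℕ) : ℝ)) atTop (𝓝 0) :=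
          tendsto_const_div_atTop_nhds_zero_nat _
        exact h1.comp (tendsto_add_atTop_nat 1)
      · refine Eventually.of_forall fun M => ?_
        have : (0:ℝ) < Real.pi / 2 / ((M + 1 : ℕ) : ℝ) := by positivity
        exact this.ne'
    have h2 := hcomp.comp hε
    have h3 : Tendsto (fun M : ℕ => (Real.pi / 2) ^ p *
        |(Real.pi / 2 / ((M + 1 : ℕ) : ℝ))⁻¹ • (F (Real.cos (0 + Real.pi / 2 / ((M + 1 : ℕ) : ℝ)) • z.1
          + Real.sin (0 + Real.pi / 2 / ((M + 1 : ℕ) : ℝ)) • z.2) - F z.1)| ^ p) atTop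
        (𝓝 (lim z)) := by
      refine Tendsto.const_mul _ ?_
      have h4 := (h2.abs).rpow_const (p := p) (Or.inr hp0.le)
      simp only [Function.comp_def, hc0] at h4
      exact h4
    refine h3.congr fun M => ?_
    have hM0 : (0:ℝ) < ((M + 1 : ℕ) : ℝ) := by positivity
    simp only [hh, stepF, zero_add, smul_eq_mul]
    rw [abs_mul, Real.mul_rpow (abs_nonneg _) (abs_nonneg _), ← mul_assoc,
      abs_of_pos (by positivity), ← Real.mul_rpow (by positivity) (by positivity)]
    congr 2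
    field_simp
  have hbound : Integrable (fun z : Eu k × Eu k =>
      (Real.pi / 2) ^ p * ((L : ℝ) ^ p * (‖z.1‖ + ‖z.2‖) ^ p)) (gg k) :=
    ((integrable_norm_pow_gg hp0).const_mul _).const_mul _
  have hmeas : ∀ M, AEStronglyMeasurable (h M) (gg k) := fun M =>
    ((stepF_continuous hF hp0 _).const_mul _).aestronglyMeasurable
  have hconv := tendsto_integral_of_dominated_convergence _ hmeas hbound
    (fun M => Eventually.of_forall (hdom M)) htend
  have hle : ∀ M, ∫ z, |F z.1 - F z.2| ^ p ∂(gg k) ≤ ∫ z, h M z ∂(gg k) := by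
    intro M
    have h1 := telescope hF hp (M + 1) (Nat.succ_pos M)
    simp only [hh]
    rw [integral_const_mul]
    exact h1
  have hfin := ge_of_tendsto' hconv hle
  refine hfin.trans ?_
  have hlimint : Integrable lim (gg k) := by
    refine hbound.mono' (aestronglyMeasurable_of_tendsto_ae _ hmeas htend) ?_
    filter_upwards [htend] with z hz
    exact le_of_tendsto' hz.norm fun M => hdom M z
  have hprod : ∫ z, lim z ∂(gg k)
      = ∫ x, ∫ y, lim (x, y) ∂(stdGaussian (Eu k)) ∂(stdGaussian (Eu k)) :=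
    integral_prod _ hlimint
  rw [hprod]
  have hinner : ∀ x, ∫ y, lim (x, y) ∂(stdGaussian (Eu k))
      = (Real.pi / 2) ^ p * (‖fderiv ℝ F x‖ ^ p * gmom p) := by
    intro x
    simp only [hlim]
    rw [integral_const_mul, integral_dual_rpow]
  have hinnerle : ∀ x, ∫ y, lim (x, y) ∂(stdGaussian (Eu k))
      ≤ (Real.pi / 2) ^ p * (L ^ p * gmom p) := by
    intro x
    rw [hinner x]
    refine mul_le_mul_of_nonneg_left ?_ (by positivity)
    refine mul_le_mul_of_nonneg_right ?_ (gmom_pos hp0).le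
    exact Real.rpow_le_rpow (norm_nonneg _) (norm_fderiv_le_of_lipschitz ℝ hF) hp0.le
  calc ∫ x, ∫ y, lim (x, y) ∂(stdGaussian (Eu k)) ∂(stdGaussian (Eu k))
      ≤ ∫ _x, (Real.pi / 2) ^ p * (L ^ p * gmom p) ∂(stdGaussian (Eu k)) :=
        integral_mono hlimint.integral_prod_left (integrable_const _) hinnerle
    _ = _ := by simp

end Vale.Agent.P249
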