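import Vale.Agent.Lib.P249.Sampling

/-!
Sampling a finite weighted `ℓ_p` representation with bounded total sensitivity.
-/

namespace Vale.Agent.P249

open Finset

theorem exists_small_dim {V K : Type*} [Fintype V] [Fintype K] (p : ℝ) (hp : 0 < p)
    (x : V → K → ℝ) (w : K → ℝ) (hw : ∀ k, 0 ≤ w k)
    (ρ : V → V → ℝ) (hρ : ∀ a b, ρ a b = ∑ k, w k * |x a k - x b k| ^ p)
    (Q : K → ℝ) (hQ0 : ∀ k, 0 ≤ Q k) (hQ : ∀ a b k, |x a k - x b k| ^ p ≤ Q k * ρ a b)
    (S : ℝ) (hS : ∑ k, w k * Q k ≤ S) (N : ℕ) (ε : ℝ) (hε0 : 0 < ε) (hε1 : ε ≤ 1)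
    (hN : 2 * (Fintype.card V : ℝ) ^ 2 * Real.exp (-(ε ^ 2 / 4) * (N / S)) < 1) :
    ∃ y : V → Fin N → ℝ, ∀ a b, |∑ r, |y a r - y b r| ^ p - ρ a b| ≤ ε * ρ a b := by
  classical
  have hterm : ∀ a b k, 0 ≤ |x a k - x b k| ^ p := fun a b k => Real.rpow_nonneg (abs_nonneg _) _
  have hρ0 : ∀ a b, 0 ≤ ρ a b := fun a b => by
    rw [hρ]; exact Finset.sum_nonneg fun k _ => mul_nonneg (hw k) (hterm a b k)
  set S' : ℝ := ∑ k, w k * Q k with hS'
  have hS'0 : 0 ≤ S' := Finset.sum_nonneg fun k _ => mul_nonneg (hw k) (hQ0 k)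
  rcases hS'0.eq_or_lt with hz | hpos
  · -- degenerate case
    refine ⟨fun _ _ => 0, fun a b => ?_⟩
    have h1 : ρ a b ≤ 0 := by
      calc ρ a b = ∑ k, w k * |x a k - x b k| ^ p := hρ a b
        _ ≤ ∑ k, (w k * Q k) * ρ a b := Finset.sum_le_sum fun k _ => by
            rw [mul_assoc]; exact mul_le_mul_of_nonneg_left (hQ a b k) (hw k)
        _ = 0 := by rw [← Finset.sum_mul, ← hS', ← hz, zero_mul]
    have h2 : ρ a b = 0 := le_antisymm h1 (hρ0 a b)
    rw [h2]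
    simp [Real.zero_rpow hp.ne']
  set q : K → ℝ := fun k => w k * Q k / S' with hq
  have hq0 : ∀ k, 0 ≤ q k := fun k => div_nonneg (mul_nonneg (hw k) (hQ0 k)) hS'0
  have hq1 : ∑ k, q k = 1 := by
    simp only [hq]; rw [← Finset.sum_div, ← hS', div_self hpos.ne']
  set ι := {e : V × V // 0 < ρ e.1 e.2} with hι
  set θ : ι → K → ℝ := fun e k => |x e.1.1 k - x e.1.2 k| ^ p / (Q k * ρ e.1.1 e.1.2) with hθ
  have hθ0 : ∀ i k, 0 ≤ θ i k := fun i k =>
    div_nonneg (hterm _ _ _) (mul_nonneg (hQ0 k) i.2.le)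
  have hθ1 : ∀ i k, θ i k ≤ 1 := fun i k => by
    simp only [hθ]
    exact div_le_one_of_le₀ (hQ _ _ k) (mul_nonneg (hQ0 k) i.2.le)
  have hθval : ∀ (i : ι) k, Q k * θ i k = |x i.1.1 k - x i.1.2 k| ^ p / ρ i.1.1 i.1.2 := by
    intro i k
    have hi := i.2
    simp only [hθ]
    by_cases hQk : Q k = 0
    · have h1 := hQ i.1.1 i.1.2 k
      rw [hQk, zero_mul] at h1
      have h2 : |x i.1.1 k - x i.1.2 k| ^ p = 0 := le_antisymm h1 (hterm _ _ _)
      rw [hQk, h2]; simp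
    · field_simp
  have hmean : ∀ i, ∑ k, q k * θ i k = 1 / S' := by
    intro i
    have e : ∀ k, q k * θ i k = w k * |x i.1.1 k - x i.1.2 k| ^ p / (S' * ρ i.1.1 i.1.2) := by
      intro k
      have h1 := hθval i k
      have hi := i.2.ne'
      have : q k * θ i k = w k * (Q k * θ i k) / S' := by simp only [hq]; ring
      rw [this, h1]
      field_simp
    rw [Finset.sum_congr rfl fun k _ => e k, ← Finset.sum_div, ← hρ]
    have hi := i.2.ne'
    field_simp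
  have hcard : (Fintype.card ι : ℝ) ≤ (Fintype.card V : ℝ) ^ 2 := by
    have h1 : Fintype.card ι ≤ Fintype.card (V × V) := Fintype.card_subtype_le _
    rw [Fintype.card_prod] at h1
    rw [sq]; exact_mod_cast h1
  have hN' : 2 * (Fintype.card ι : ℝ) * Real.exp (-(ε ^ 2 / 4) * (N * (1 / S'))) < 1 := by
    refine lt_of_le_of_lt ?_ hN
    have h1 : Real.exp (-(ε ^ 2 / 4) * (N * (1 / S'))) ≤ Real.exp (-(ε ^ 2 / 4) * (N / S)) := by
      apply Real.exp_le_exp.mpr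
      have h2 : (N : ℝ) / S ≤ N * (1 / S') := by
        rw [mul_one_div]
        exact div_le_div_of_nonneg_left (Nat.cast_nonneg N) hpos hS
      nlinarith [sq_nonneg ε]
    exact mul_le_mul (by linarith) h1 (Real.exp_pos _).le (by positivity)
  obtain ⟨κ, hκ⟩ := exists_sample q hq0 hq1 θ hθ0 hθ1 (1 / S') hmean N ε hε0 hε1 hN'
  refine ⟨fun a r => x a (κ r) * (S' / (N * Q (κ r))) ^ (1 / p), fun a b => ?_⟩
  have hyterm : ∀ r, |x a (κ r) * (S' / (N * Q (κ r))) ^ (1 / p)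
      - x b (κ r) * (S' / (N * Q (κ r))) ^ (1 / p)| ^ p
      = |x a (κ r) - x b (κ r)| ^ p * (S' / (N * Q (κ r))) := by
    intro r
    have hnn : 0 ≤ S' / (N * Q (κ r)) :=
      div_nonneg hS'0 (mul_nonneg (Nat.cast_nonneg N) (hQ0 _))
    rw [← sub_mul, abs_mul, Real.mul_rpow (abs_nonneg _) (abs_nonneg _),
      abs_of_nonneg (Real.rpow_nonneg hnn _), ← Real.rpow_mul hnn, one_div,
      inv_mul_cancel₀ hp.ne', Real.rpow_one]
  rw [Finset.sum_congr rfl fun r _ => hyterm r]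
  rcases (hρ0 a b).eq_or_lt with h0 | h0
  · have h1 : ∀ r, |x a (κ r) - x b (κ r)| ^ p * (S' / (N * Q (κ r))) = 0 := by
      intro r
      have h2 := hQ a b (κ r)
      rw [← h0, mul_zero] at h2
      rw [le_antisymm h2 (hterm _ _ _), zero_mul]
    rw [Finset.sum_congr rfl fun r _ => h1 r, ← h0]
    simp
  · have hk := hκ ⟨(a, b), h0⟩
    have hNpos : (0:ℝ) < N := by
      rcases Nat.eq_zero_or_pos N with h | h
      · subst h
        simp at hk
      · exact_mod_cast h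
    have e : ∀ r, |x a (κ r) - x b (κ r)| ^ p * (S' / (N * Q (κ r)))
        = (ρ a b * S' / N) * θ ⟨(a, b), h0⟩ (κ r) := by
      intro r
      simp only [hθ]
      by_cases hQk : Q (κ r) = 0
      · have h1 := hQ a b (κ r)
        rw [hQk, zero_mul] at h1
        rw [le_antisymm h1 (hterm _ _ _)]; simp
      · field_simp
    rw [Finset.sum_congr rfl fun r _ => e r, ← Finset.mul_sum]
    have hfac : ρ a b * S' / N * ∑ r, θ ⟨(a, b), h0⟩ (κ r) - ρ a b
        = (ρ a b * S' / N) * (∑ r, θ ⟨(a, b), h0⟩ (κ r) - N * (1 / S')) := by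
      field_simp
    rw [hfac, abs_mul, abs_of_pos (by positivity)]
    calc ρ a b * S' / N * |∑ r, θ ⟨(a, b), h0⟩ (κ r) - N * (1 / S')|
        ≤ ρ a b * S' / N * (ε * (N * (1 / S'))) :=
          mul_le_mul_of_nonneg_left hk.le (by positivity)
      _ = ε * ρ a b := by field_simp

end Vale.Agent.P249
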