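import Vale.Agent.Lib.P249.Graph

/-!
Expanding graphs have bounded `p`-resistance; proof of the graph lemma.
-/

namespace Vale.Agent.P249

open Finset

lemma pow_step {p s : ℝ} (hp : 1 < p) (hs : 1 ≤ s) :
    (s + 1) ^ (2 * p) ≤ s ^ (2 * p) + p * 4 ^ p * s ^ (2 * p - 1) := by
  have hs1 : 0 < s + 1 := by linarith
  have hs0 : 0 < s := by linarith
  have h1 := one_add_mul_self_le_rpow_one_add (s := -(1 / (s + 1))) (p := 2 * p)
    (by
      have : 1 / (s + 1) ≤ 1 := by rw [div_le_one hs1]; linarith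
      linarith) (by linarith)
  have e1 : 1 + -(1 / (s + 1)) = s / (s + 1) := by field_simp; ring
  rw [e1, Real.div_rpow hs0.le hs1.le] at h1
  have hP : 0 < (s + 1) ^ (2 * p) := Real.rpow_pos_of_pos hs1 _
  have h2 := mul_le_mul_of_nonneg_right h1 hP.le
  rw [div_mul_cancel₀ _ hP.ne'] at h2
  have h3 : (s + 1) ^ (2 * p - 1) = (s + 1) ^ (2 * p) / (s + 1) := Real.rpow_sub_one hs1.ne' _
  have h4 : (1 + 2 * p * -(1 / (s + 1))) * (s + 1) ^ (2 * p)
      = (s + 1) ^ (2 * p) - 2 * p * (s + 1) ^ (2 * p - 1) := by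
    rw [h3]; field_simp; ring
  rw [h4] at h2
  have h5 : (s + 1) ^ (2 * p - 1) ≤ (2 * s) ^ (2 * p - 1) :=
    Real.rpow_le_rpow hs1.le (by linarith) (by linarith)
  have h6 : (2 * s) ^ (2 * p - 1) = 2 ^ (2 * p - 1) * s ^ (2 * p - 1) :=
    Real.mul_rpow (by norm_num) hs0.le
  have h7 : (2:ℝ) * 2 ^ (2 * p - 1) = 4 ^ p := by
    have e2 : (4:ℝ) = 2 ^ (2:ℝ) := by norm_num
    rw [e2, ← Real.rpow_mul (by norm_num), Real.rpow_sub_one (by norm_num)]
    ring
  rw [h6] at h5
  have h8 : 2 * p * (s + 1) ^ (2 * p - 1) ≤ 2 * p * (2 ^ (2 * p - 1) * s ^ (2 * p - 1)) :=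
    mul_le_mul_of_nonneg_left h5 (by linarith)
  have h9 : 2 * p * (2 ^ (2 * p - 1) * s ^ (2 * p - 1)) = p * 4 ^ p * s ^ (2 * p - 1) := by
    rw [← h7]; ring
  linarith

theorem resistance_core {V : Type*} [Fintype V] [DecidableEq V] {p c K : ℝ} (hp : 1 < p)
    (hc : 0 < c) (hK : K = 2 * p * 4 ^ p)
    (hζ : ∀ k : ℕ, ∑ j ∈ range k, c * ((j : ℝ) + 1) ^ (-(2 - 1 / p)) < 1 / 2)
    (H : Finset (V × V))
    (hgood : ∀ S : Finset V, 0 < volE H S → volE H S ≤ H.card →
      K * (volE H S) ^ (1 - 1 / (2 * p)) ≤ (bdE H S).card)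
    (e : V × V) (he : e ∈ H) (u : V → ℝ) (a : V) (ha : a = e.1 ∨ a = e.2) (hua : u a ≤ 0)
    (hE : ∑ f ∈ H.erase e, |u f.1 - u f.2| ^ p ≤ K / 4 * c ^ p)
    (hhalf : volE H (Finset.univ.filter fun v => u v < 1 / 2) ≤ H.card) : False := by
  classical
  have hp0 : 0 < p := by linarith
  have h4p : (4:ℝ) ≤ 4 ^ p := by
    calc (4:ℝ) = 4 ^ (1:ℝ) := (Real.rpow_one 4).symm
      _ ≤ 4 ^ p := Real.rpow_le_rpow_of_exponent_le (by norm_num) hp.le
  have hK4 : 4 ≤ K := by rw [hK]; nlinarith
  set δ : ℕ → ℝ := fun j => c * ((j : ℝ) + 1) ^ (-(2 - 1 / p)) with hδ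
  have hδpos : ∀ j, 0 < δ j := fun j => mul_pos hc (Real.rpow_pos_of_pos (by positivity) _)
  set t : ℕ → ℝ := fun k => ∑ j ∈ range k, δ j with ht
  have htlt : ∀ k, t k < 1 / 2 := hζ
  set L : ℝ → Finset V := fun s => Finset.univ.filter fun v => u v ≤ s with hL
  have hLsub : ∀ k, volE H (L (t k)) ≤ H.card := by
    intro k
    refine (volE_mono H ?_).trans hhalf
    intro v hv
    simp only [hL, Finset.mem_filter] at hv ⊢
    exact ⟨hv.1, lt_of_le_of_lt hv.2 (htlt k)⟩
  have hmain : ∀ k : ℕ, ((k : ℝ) + 1) ^ (2 * p) ≤ volE H (L (t k)) := by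
    intro k
    induction k with
    | zero =>
      have h0 : t 0 = 0 := by simp [ht]
      rw [h0]
      simp only [Nat.cast_zero, zero_add, Real.one_rpow]
      unfold volE
      have haL : a ∈ L 0 := by simp only [hL, Finset.mem_filter]; exact ⟨Finset.mem_univ _, hua⟩
      refine le_trans ?_ (Finset.single_le_sum (f := fun f : V × V =>
        ((if f.1 ∈ L 0 then (1:ℝ) else 0) + (if f.2 ∈ L 0 then (1:ℝ) else 0)))
        (fun f _ => by positivity) he)
      rcases ha with h | h
      · rw [h] at haL; simp only [haL, if_true]; split_ifs <;> norm_num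
      · rw [h] at haL; simp only [haL, if_true]; split_ifs <;> norm_num
    | succ k ih =>
      set S := L (t k) with hS
      set S' := L (t (k + 1)) with hS'
      set m : ℝ := (k : ℝ) + 1 with hm
      have hm1 : 1 ≤ m := by rw [hm]; have := Nat.cast_nonneg (α := ℝ) k; linarith
      have hm0 : 0 < m := by linarith
      have hvpos : 0 < volE H S := lt_of_lt_of_le (Real.rpow_pos_of_pos hm0 _) ih
      have hbd := hgood S hvpos (hLsub k)
      have hbd2 : K * m ^ (2 * p - 1) ≤ ((bdE H S).card : ℝ) := by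
        refine le_trans (mul_le_mul_of_nonneg_left ?_ (by linarith)) hbd
        have h1 : (m ^ (2 * p)) ^ (1 - 1 / (2 * p)) ≤ (volE H S) ^ (1 - 1 / (2 * p)) := by
          refine Real.rpow_le_rpow (by positivity) ih ?_
          have : 1 / (2 * p) ≤ 1 := by rw [div_le_one (by linarith)]; linarith
          linarith
        rw [← Real.rpow_mul hm0.le] at h1
        have e1 : 2 * p * (1 - 1 / (2 * p)) = 2 * p - 1 := by field_simp
        rwa [e1] at h1
      have htk : t (k + 1) = t k + δ k := by simp only [ht, Finset.sum_range_succ]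
      -- bad crossing edges
      set bad := (H.erase e).filter fun f => δ k < |u f.1 - u f.2| with hbad
      have hbadcard : (bad.card : ℝ) ≤ K / 4 * m ^ (2 * p - 1) := by
        have hδp : 0 < (δ k) ^ p := Real.rpow_pos_of_pos (hδpos k) p
        have h1 : (bad.card : ℝ) * (δ k) ^ p ≤ K / 4 * c ^ p := by
          calc (bad.card : ℝ) * (δ k) ^ p = ∑ _f ∈ bad, (δ k) ^ p := by
                rw [Finset.sum_const, nsmul_eq_mul]
            _ ≤ ∑ f ∈ bad, |u f.1 - u f.2| ^ p := by
                refine Finset.sum_le_sum fun f hf => ?_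
                exact Real.rpow_le_rpow (hδpos k).le (Finset.mem_filter.mp hf).2.le hp0.le
            _ ≤ ∑ f ∈ H.erase e, |u f.1 - u f.2| ^ p :=
                Finset.sum_le_sum_of_subset_of_nonneg (Finset.filter_subset _ _)
                  (fun f _ _ => Real.rpow_nonneg (abs_nonneg _) _)
            _ ≤ _ := hE
        have h2 : (δ k) ^ p = c ^ p * m ^ (-(2 * p - 1)) := by
          simp only [hδ]
          rw [Real.mul_rpow hc.le (Real.rpow_nonneg hm0.le _), ← Real.rpow_mul hm0.le]
          congr 2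
          field_simp
        rw [h2] at h1
        have h3 : m ^ (-(2 * p - 1)) * m ^ (2 * p - 1) = 1 := by
          rw [← Real.rpow_add hm0]; simp
        have h4 : 0 < m ^ (2 * p - 1) := Real.rpow_pos_of_pos hm0 _
        have h5 := mul_le_mul_of_nonneg_right h1 h4.le
        have h6 : (bad.card : ℝ) * (c ^ p * m ^ (-(2 * p - 1))) * m ^ (2 * p - 1)
            = (bad.card : ℝ) * c ^ p := by
          linear_combination ((bad.card : ℝ) * c ^ p) * h3
        rw [h6] at h5
        have hcp : 0 < c ^ p := Real.rpow_pos_of_pos hc p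
        have h7 : K / 4 * c ^ p * m ^ (2 * p - 1) = (K / 4 * m ^ (2 * p - 1)) * c ^ p := by ring
        rw [h7] at h5
        exact le_of_mul_le_mul_right h5 hcp
      -- good crossing edges
      set M := (bdE H S).filter fun f => f ≠ e ∧ |u f.1 - u f.2| ≤ δ k with hM
      have hMcard : ((bdE H S).card : ℝ) ≤ M.card + 1 + bad.card := by
        have hsub : bdE H S ⊆ M ∪ ({e} ∪ bad) := by
          intro f hf
          by_cases h1 : f = e
          · simp [h1]
          · by_cases h2 : |u f.1 - u f.2| ≤ δ k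
            · exact Finset.mem_union_left _ (Finset.mem_filter.mpr ⟨hf, h1, h2⟩)
            · refine Finset.mem_union_right _ (Finset.mem_union_right _ ?_)
              push Not at h2
              exact Finset.mem_filter.mpr ⟨Finset.mem_erase.mpr ⟨h1, (Finset.mem_filter.mp hf).1⟩,
                h2⟩
        have h1 := Finset.card_le_card hsub
        have h2 : (M ∪ ({e} ∪ bad)).card ≤ M.card + (({e} : Finset (V × V)).card + bad.card) :=
          (Finset.card_union_le _ _).trans (Nat.add_le_add_left (Finset.card_union_le _ _) _)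
        rw [Finset.card_singleton] at h2
        have h3 : (bdE H S).card ≤ M.card + 1 + bad.card := by omega
        exact_mod_cast h3
      -- volume growth
      have hgrow : volE H S + M.card ≤ volE H S' := by
        have hSS' : S ⊆ S' := by
          intro v hv
          simp only [hS, hS', hL, Finset.mem_filter] at hv ⊢
          refine ⟨hv.1, hv.2.trans ?_⟩
          rw [htk]; linarith [hδpos k]
        have hMH : M ⊆ H := (Finset.filter_subset _ _).trans (Finset.filter_subset _ _)
        have e1 : (M.card : ℝ) = ∑ f ∈ H, if f ∈ M then (1:ℝ) else 0 := by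
          rw [← Finset.sum_filter, Finset.filter_mem_eq_inter, Finset.inter_eq_right.mpr hMH]
          simp
        rw [e1]
        unfold volE
        rw [← Finset.sum_add_distrib]
        refine Finset.sum_le_sum fun f _ => ?_
        have hg1 : f.1 ∈ S → f.1 ∈ S' := fun h => hSS' h
        have hg2 : f.2 ∈ S → f.2 ∈ S' := fun h => hSS' h
        by_cases hfM : f ∈ M
        · rw [if_pos hfM]
          have hf := Finset.mem_filter.mp hfM
          have hfb := (Finset.mem_filter.mp hf.1).2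
          have habs := abs_le.mp hf.2.2
          have hmemS : ∀ v, v ∈ S ↔ u v ≤ t k := fun v => by
            simp only [hS, hL, Finset.mem_filter]
            exact ⟨fun h => h.2, fun h => ⟨Finset.mem_univ _, h⟩⟩
          have hmemS' : ∀ v, v ∈ S' ↔ u v ≤ t k + δ k := fun v => by
            simp only [hS', hL, Finset.mem_filter]
            rw [htk]
            exact ⟨fun h => h.2, fun h => ⟨Finset.mem_univ _, h⟩⟩
          by_cases a1 : f.1 ∈ S
          · have a2 : f.2 ∉ S := fun h => hfb ⟨fun _ => h, fun _ => a1⟩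
            have a3 : f.1 ∈ S' := hg1 a1
            have a4 : f.2 ∈ S' := by
              rw [hmemS']; rw [hmemS] at a1; linarith
            rw [if_pos a1, if_neg a2, if_pos a3, if_pos a4]; norm_num
          · have a2 : f.2 ∈ S := by
              by_contra h
              exact hfb ⟨fun h1 => absurd h1 a1, fun h2 => absurd h2 h⟩
            have a3 : f.2 ∈ S' := hg2 a2
            have a4 : f.1 ∈ S' := by
              rw [hmemS']; rw [hmemS] at a2; linarith
            rw [if_neg a1, if_pos a2, if_pos a4, if_pos a3]; norm_num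
        · rw [if_neg hfM, add_zero]
          refine add_le_add ?_ ?_
          · by_cases a1 : f.1 ∈ S
            · rw [if_pos a1, if_pos (hg1 a1)]
            · rw [if_neg a1]; split_ifs <;> norm_num
          · by_cases a1 : f.2 ∈ S
            · rw [if_pos a1, if_pos (hg2 a1)]
            · rw [if_neg a1]; split_ifs <;> norm_num
      have hstep := pow_step hp hm1
      have hmp : 1 ≤ m ^ (2 * p - 1) := Real.one_le_rpow hm1 (by linarith)
      have hcast : ((k + 1 : ℕ) : ℝ) + 1 = m + 1 := by rw [hm]; push_cast; ring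
      rw [hcast]
      have hKm : K / 2 * m ^ (2 * p - 1) = p * 4 ^ p * m ^ (2 * p - 1) := by rw [hK]; ring
      nlinarith
  -- contradiction
  obtain ⟨k, hk⟩ := exists_nat_gt (H.card : ℝ)
  have h1 := (hmain k).trans (hLsub k)
  have hk0 : (0:ℝ) ≤ k := Nat.cast_nonneg k
  have h2 : ((k : ℝ) + 1) ≤ ((k : ℝ) + 1) ^ (2 * p) := by
    calc ((k : ℝ) + 1) = ((k : ℝ) + 1) ^ (1:ℝ) := (Real.rpow_one _).symm
      _ ≤ _ := Real.rpow_le_rpow_of_exponent_le (by linarith) (by linarith)
  linarith

theorem graph_lemma (p : ℝ) (hp : 1 < p) : ∃ C B : ℝ, 1 ≤ C ∧ 0 < B ∧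
    ∀ (V : Type) [Fintype V] [DecidableEq V] (F : Finset (V × V)), (∀ e ∈ F, e.1 ≠ e.2) →
      B * (Fintype.card V : ℝ) < F.card → ∃ H ⊆ F, H.Nonempty ∧ ∀ e ∈ H, ∀ u : V → ℝ,
        |u e.1 - u e.2| ^ p ≤ C * ∑ f ∈ H.erase e, |u f.1 - u f.2| ^ p := by
  classical
  have hp0 : 0 < p := by linarith
  set K : ℝ := 2 * p * 4 ^ p with hK
  have h4p : (4:ℝ) ≤ 4 ^ p := by
    calc (4:ℝ) = 4 ^ (1:ℝ) := (Real.rpow_one 4).symm
      _ ≤ 4 ^ p := Real.rpow_le_rpow_of_exponent_le (by norm_num) hp.le
  have hK4 : 4 ≤ K := by rw [hK]; nlinarith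
  have h2θ : (2:ℝ) ^ (1 - 1 / (2 * p)) < 2 := by
    calc (2:ℝ) ^ (1 - 1 / (2 * p)) < 2 ^ (1:ℝ) := by
          refine Real.rpow_lt_rpow_of_exponent_lt (by norm_num) ?_
          have : 0 < 1 / (2 * p) := by positivity
          linarith
      _ = 2 := Real.rpow_one 2
  set A : ℝ := 6 * K / (2 - 2 ^ (1 - 1 / (2 * p))) with hA
  have hA' : A * (2 - 2 ^ (1 - 1 / (2 * p))) = 6 * K := by
    rw [hA]; exact div_mul_cancel₀ _ (by linarith)
  have hA0 : 0 < A := div_pos (by linarith) (by linarith)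
  set de : ℝ := 3 * (3 * K + A) ^ (2 * p) with hde
  have hde0 : 0 < de := by positivity
  -- the series
  have hsum : Summable fun j : ℕ => ((j : ℝ) + 1) ^ (-(2 - 1 / p)) := by
    have h1 : Summable fun n : ℕ => ((n : ℝ)) ^ (-(2 - 1 / p)) := by
      rw [Real.summable_nat_rpow]
      have : 1 / p < 1 := by rw [div_lt_one hp0]; exact hp
      linarith
    have := (summable_nat_add_iff 1).mpr h1
    simpa using this
  set ζ : ℝ := ∑' j : ℕ, ((j : ℝ) + 1) ^ (-(2 - 1 / p)) with hζ
  have hζ0 : 0 ≤ ζ := tsum_nonneg fun j => Real.rpow_nonneg (by positivity) _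
  set c : ℝ := 1 / (4 * (ζ + 1)) with hc
  have hc0 : 0 < c := by positivity
  have hpart : ∀ k : ℕ, ∑ j ∈ range k, c * ((j : ℝ) + 1) ^ (-(2 - 1 / p)) < 1 / 2 := by
    intro k
    rw [← Finset.mul_sum]
    have h1 : ∑ j ∈ range k, ((j : ℝ) + 1) ^ (-(2 - 1 / p)) ≤ ζ :=
      hsum.sum_le_tsum _ fun j _ => Real.rpow_nonneg (by positivity) _
    calc c * ∑ j ∈ range k, ((j : ℝ) + 1) ^ (-(2 - 1 / p)) ≤ c * ζ :=
          mul_le_mul_of_nonneg_left h1 hc0.le
      _ < 1 / 2 := by
          rw [hc, div_mul_eq_mul_div, one_mul, div_lt_div_iff₀ (by positivity) (by norm_num)]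
          linarith
  set η : ℝ := K / 4 * c ^ p with hη
  have hη0 : 0 < η := by positivity
  refine ⟨max 1 (1 / η), de + A * de, le_max_left _ _, by positivity, ?_⟩
  intro V _ _ F _ hF
  obtain ⟨H, hHF, hHne, hgood⟩ := exists_good hp (by linarith) hA' hA0 hde (by linarith) F hF
  refine ⟨H, hHF, hHne, fun e he u => ?_⟩
  by_contra hcon
  push Not at hcon
  set E0 : ℝ := ∑ f ∈ H.erase e, |u f.1 - u f.2| ^ p with hE0
  have hE00 : 0 ≤ E0 := Finset.sum_nonneg fun f _ => Real.rpow_nonneg (abs_nonneg _) _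
  have hmax : 1 / η ≤ max 1 (1 / η) := le_max_right _ _
  have hpos : 0 < |u e.1 - u e.2| ^ p := lt_of_le_of_lt (by positivity) hcon
  have hne : u e.1 - u e.2 ≠ 0 := by
    intro h
    rw [h, abs_zero, Real.zero_rpow hp0.ne'] at hpos
    exact lt_irrefl _ hpos
  set Δ : ℝ := u e.2 - u e.1 with hΔ
  have hΔ0 : Δ ≠ 0 := by intro h; apply hne; linarith
  have hΔabs : |u e.1 - u e.2| = |Δ| := by rw [hΔ, abs_sub_comm]
  set u' : V → ℝ := fun v => (u v - u e.1) / Δ with hu'
  have hE' : ∑ f ∈ H.erase e, |u' f.1 - u' f.2| ^ p ≤ K / 4 * c ^ p := by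
    have h1 : ∀ f : V × V, |u' f.1 - u' f.2| ^ p = |u f.1 - u f.2| ^ p / |Δ| ^ p := by
      intro f
      have : u' f.1 - u' f.2 = (u f.1 - u f.2) / Δ := by simp only [hu']; ring
      rw [this, abs_div, Real.div_rpow (abs_nonneg _) (abs_nonneg _)]
    simp only [h1]
    rw [← Finset.sum_div, ← hE0, ← hη, div_le_iff₀ (by rw [← hΔabs]; exact hpos), ← hΔabs]
    have h2 : 1 / η * E0 ≤ |u e.1 - u e.2| ^ p :=
      (mul_le_mul_of_nonneg_right hmax hE00).trans hcon.le
    rw [one_div, inv_mul_le_iff₀ hη0] at h2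
    exact h2
  have hdisj : Disjoint (Finset.univ.filter fun v => u' v < 1 / 2)
      (Finset.univ.filter fun v => 1 - u' v < 1 / 2) := by
    rw [Finset.disjoint_left]
    intro v h1 h2
    have a1 := (Finset.mem_filter.mp h1).2
    have a2 := (Finset.mem_filter.mp h2).2
    linarith
  have hvols := volE_add_le H hdisj
  rcases le_total (volE H (Finset.univ.filter fun v => u' v < 1 / 2)) (H.card : ℝ) with h | h
  · exact resistance_core hp hc0 hK hpart H hgood e he u' e.1 (Or.inl rfl) (by simp [hu']) hE' h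
  · refine resistance_core hp hc0 hK hpart H hgood e he (fun v => 1 - u' v) e.2 (Or.inr rfl) ?_ ?_
      (by linarith)
    · have : u' e.2 = 1 := by simp only [hu']; exact div_self hΔ0
      simp [this]
    · have : ∀ f : V × V, |(1 - u' f.1) - (1 - u' f.2)| = |u' f.1 - u' f.2| := by
        intro f
        have : (1 - u' f.1) - (1 - u' f.2) = -(u' f.1 - u' f.2) := by ring
        rw [this, abs_neg]
      simp only [this]
      exact hE'

end Vale.Agent.P249
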