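import Mathlib

/-!
Sampling lemma: a weighted finite `ℓ_p` representation with total sensitivity `S` can be sampled
down to `O(S log n)` coordinates.
-/

namespace Vale.Agent.P249

open Finset

section Expectation

variable {K : Type*} [Fintype K]

/-- expectation of a product over independent samples -/
lemma sum_prod_samples (N : ℕ) (q g : K → ℝ) :
    ∑ k : Fin N → K, (∏ r, q (k r)) * ∏ r, g (k r) = (∑ k, q k * g k) ^ N := by
  have h := Finset.prod_univ_sum (fun _ : Fin N => (Finset.univ : Finset K))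
    (fun _ k => q k * g k)
  rw [Finset.prod_const, Finset.card_univ, Fintype.card_fin] at h
  rw [h, Fintype.piFinset_univ]
  refine Finset.sum_congr rfl fun k _ => ?_
  rw [← Finset.prod_mul_distrib]

lemma exp_le_quad {s : ℝ} (hs : |s| ≤ 1) : Real.exp s ≤ 1 + s + s ^ 2 := by
  have h := Real.abs_exp_sub_one_sub_id_le hs
  have := (abs_le.mp h).2
  linarith

lemma exp_mul_le {θ lam : ℝ} (h0 : 0 ≤ θ) (h1 : θ ≤ 1) :
    Real.exp (lam * θ) ≤ 1 + (Real.exp lam - 1) * θ := by
  have hc := convexOn_exp.2 (Set.mem_univ (0:ℝ)) (Set.mem_univ lam)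
    (by linarith : (0:ℝ) ≤ 1 - θ) h0 (by ring)
  simp only [smul_eq_mul, mul_zero, zero_add, Real.exp_zero, mul_one] at hc
  rw [mul_comm lam θ]
  linarith

/-- exponential moment of a `[0,1]` valued variable with mean `m` -/
lemma mgf_le (q θ : K → ℝ) (hq : ∀ k, 0 ≤ q k) (hq1 : ∑ k, q k = 1)
    (h0 : ∀ k, 0 ≤ θ k) (h1 : ∀ k, θ k ≤ 1) (lam : ℝ) :
    ∑ k, q k * Real.exp (lam * θ k) ≤ Real.exp ((Real.exp lam - 1) * ∑ k, q k * θ k) := by
  calc ∑ k, q k * Real.exp (lam * θ k) ≤ ∑ k, q k * (1 + (Real.exp lam - 1) * θ k) :=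
        Finset.sum_le_sum fun k _ => mul_le_mul_of_nonneg_left (exp_mul_le (h0 k) (h1 k)) (hq k)
    _ = ∑ k, q k + (Real.exp lam - 1) * ∑ k, q k * θ k := by
        rw [Finset.mul_sum, ← Finset.sum_add_distrib]
        refine Finset.sum_congr rfl fun k _ => ?_
        ring
    _ = 1 + (Real.exp lam - 1) * ∑ k, q k * θ k := by rw [hq1]
    _ ≤ _ := by
        have := Real.add_one_le_exp ((Real.exp lam - 1) * ∑ k, q k * θ k)
        linarith

/-- two sided sampling: all the empirical sums are close to their means -/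
theorem exists_sample {ι : Type*} [Fintype ι] (q : K → ℝ) (hq : ∀ k, 0 ≤ q k)
    (hq1 : ∑ k, q k = 1) (θ : ι → K → ℝ) (h0 : ∀ i k, 0 ≤ θ i k) (h1 : ∀ i k, θ i k ≤ 1)
    (m : ℝ) (hm : ∀ i, ∑ k, q k * θ i k = m)
    (N : ℕ) (ε : ℝ) (hε0 : 0 < ε) (hε1 : ε ≤ 1)
    (hN : 2 * (Fintype.card ι : ℝ) * Real.exp (-(ε ^ 2 / 4) * (N * m)) < 1) :
    ∃ k : Fin N → K, ∀ i, |∑ r, θ i (k r) - N * m| < ε * (N * m) := by
  set M : ℝ := N * m with hM
  set lam : ℝ := ε / 2 with hlam
  -- the potential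
  set Φ : (Fin N → K) → ℝ := fun k => ∑ i,
    (Real.exp (-(lam * ((1 + ε) * M))) * (∏ r, Real.exp (lam * θ i (k r)))
      + Real.exp (lam * ((1 - ε) * M)) * (∏ r, Real.exp (-lam * θ i (k r)))) with hΦ
  have hmom : ∀ (i : ι) (s : ℝ), |s| ≤ 1 →
      ∑ k : Fin N → K, (∏ r, q (k r)) * ∏ r, Real.exp (s * θ i (k r))
        ≤ Real.exp ((s + s ^ 2) * M) := by
    intro i s hs
    rcases Nat.eq_zero_or_pos N with hN0 | hN0
    · subst hN0
      simp [hM]
    have hmnn : 0 ≤ m := by
      rw [← hm i]; exact Finset.sum_nonneg fun k _ => mul_nonneg (hq k) (h0 i k)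
    rw [sum_prod_samples N q (fun k => Real.exp (s * θ i k))]
    have h2 := mgf_le q (θ i) hq hq1 (h0 i) (h1 i) s
    rw [hm i] at h2
    have h3 : 0 ≤ ∑ k, q k * Real.exp (s * θ i k) :=
      Finset.sum_nonneg fun k _ => mul_nonneg (hq k) (Real.exp_pos _).le
    calc (∑ k, q k * Real.exp (s * θ i k)) ^ N ≤ (Real.exp ((Real.exp s - 1) * m)) ^ N :=
          pow_le_pow_left₀ h3 h2 N
      _ = Real.exp ((Real.exp s - 1) * M) := by
          rw [← Real.exp_nat_mul, hM]; congr 1; ring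
      _ ≤ Real.exp ((s + s ^ 2) * M) := by
          refine Real.exp_le_exp.mpr (mul_le_mul_of_nonneg_right ?_ ?_)
          · have := exp_le_quad hs; linarith
          · rw [hM]; positivity
  have hE : ∑ k : Fin N → K, (∏ r, q (k r)) * Φ k
      ≤ 2 * (Fintype.card ι : ℝ) * Real.exp (-(ε ^ 2 / 4) * M) := by
    have e1 : ∑ k : Fin N → K, (∏ r, q (k r)) * Φ k
        = ∑ i, (Real.exp (-(lam * ((1 + ε) * M))) *
            (∑ k : Fin N → K, (∏ r, q (k r)) * ∏ r, Real.exp (lam * θ i (k r)))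
          + Real.exp (lam * ((1 - ε) * M)) *
            (∑ k : Fin N → K, (∏ r, q (k r)) * ∏ r, Real.exp (-lam * θ i (k r)))) := by
      simp only [hΦ, Finset.mul_sum]
      rw [Finset.sum_comm]
      refine Finset.sum_congr rfl fun i _ => ?_
      rw [← Finset.sum_add_distrib]
      refine Finset.sum_congr rfl fun k _ => ?_
      ring
    rw [e1]
    have hl1 : |lam| ≤ 1 := by rw [hlam, abs_of_pos (by linarith)]; linarith
    have hl2 : |-lam| ≤ 1 := by rwa [abs_neg]
    calc _ ≤ ∑ _i : ι, (2 * Real.exp (-(ε ^ 2 / 4) * M)) := by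
          refine Finset.sum_le_sum fun i _ => ?_
          have a1 := mul_le_mul_of_nonneg_left (hmom i lam hl1)
            (Real.exp_pos (-(lam * ((1 + ε) * M)))).le
          have a2 := mul_le_mul_of_nonneg_left (hmom i (-lam) hl2)
            (Real.exp_pos (lam * ((1 - ε) * M))).le
          rw [← Real.exp_add] at a1 a2
          have b1 : -(lam * ((1 + ε) * M)) + (lam + lam ^ 2) * M = -(ε ^ 2 / 4) * M := by
            rw [hlam]; ring
          have b2 : lam * ((1 - ε) * M) + (-lam + (-lam) ^ 2) * M = -(ε ^ 2 / 4) * M := by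
            rw [hlam]; ring
          rw [b1] at a1
          rw [b2] at a2
          linarith
      _ = _ := by
          rw [Finset.sum_const, Finset.card_univ, nsmul_eq_mul]; ring
  have hsum1 : ∑ k : Fin N → K, (∏ r, q (k r)) = 1 := by
    have := sum_prod_samples N q (fun _ => 1)
    simp only [Finset.prod_const_one, mul_one] at this
    rw [this, hq1, one_pow]
  have hlt : ∑ k : Fin N → K, (∏ r, q (k r)) * Φ k < ∑ k : Fin N → K, (∏ r, q (k r)) * 1 := by
    simp only [mul_one]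
    rw [hsum1]
    exact lt_of_le_of_lt hE hN
  obtain ⟨k, _, hk⟩ := Finset.exists_lt_of_sum_lt hlt
  have hprod : 0 < ∏ r, q (k r) := by
    rcases (Finset.prod_nonneg fun r (_ : r ∈ Finset.univ) => hq (k r)).lt_or_eq with h | h
    · exact h
    · rw [← h] at hk; simp at hk
  have hΦk : Φ k < 1 := lt_of_mul_lt_mul_left hk hprod.le
  refine ⟨k, fun i => ?_⟩
  have hlampos : 0 < lam := by rw [hlam]; linarith
  have hterm : Real.exp (-(lam * ((1 + ε) * M))) * (∏ r, Real.exp (lam * θ i (k r)))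
      + Real.exp (lam * ((1 - ε) * M)) * (∏ r, Real.exp (-lam * θ i (k r))) < 1 := by
    refine lt_of_le_of_lt ?_ hΦk
    exact Finset.single_le_sum (f := fun i =>
      Real.exp (-(lam * ((1 + ε) * M))) * (∏ r, Real.exp (lam * θ i (k r)))
      + Real.exp (lam * ((1 - ε) * M)) * (∏ r, Real.exp (-lam * θ i (k r))))
      (fun i _ => add_nonneg
        (mul_nonneg (Real.exp_pos _).le (Finset.prod_nonneg fun r _ => (Real.exp_pos _).le))
        (mul_nonneg (Real.exp_pos _).le (Finset.prod_nonneg fun r _ => (Real.exp_pos _).le)))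
      (Finset.mem_univ i)
  have p1 : Real.exp (-(lam * ((1 + ε) * M))) * (∏ r, Real.exp (lam * θ i (k r)))
      = Real.exp (lam * (∑ r, θ i (k r) - (1 + ε) * M)) := by
    rw [← Real.exp_sum, ← Real.exp_add, ← Finset.mul_sum]; congr 1; ring
  have p2 : Real.exp (lam * ((1 - ε) * M)) * (∏ r, Real.exp (-lam * θ i (k r)))
      = Real.exp (lam * ((1 - ε) * M - ∑ r, θ i (k r))) := by
    rw [← Real.exp_sum, ← Real.exp_add, ← Finset.mul_sum]; congr 1; ring
  rw [p1, p2] at hterm
  have c1 := Real.exp_pos (lam * (∑ r, θ i (k r) - (1 + ε) * M))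
  have c2 := Real.exp_pos (lam * ((1 - ε) * M - ∑ r, θ i (k r)))
  have d1 : lam * (∑ r, θ i (k r) - (1 + ε) * M) < 0 := by
    rw [← Real.exp_lt_one_iff]; linarith
  have d2 : lam * ((1 - ε) * M - ∑ r, θ i (k r)) < 0 := by
    rw [← Real.exp_lt_one_iff]; linarith
  have f1 : ∑ r, θ i (k r) - (1 + ε) * M < 0 := by
    by_contra hc; push Not at hc
    exact absurd (mul_nonneg hlampos.le hc) (not_le.mpr d1)
  have f2 : (1 - ε) * M - ∑ r, θ i (k r) < 0 := by
    by_contra hc; push Not at hc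
    exact absurd (mul_nonneg hlampos.le hc) (not_le.mpr d2)
  rw [abs_lt]
  constructor <;> linarith

end Expectation

end Vale.Agent.P249
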